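import Vale.Agent.P012.Four

namespace Vale.Agent.P012

open Finset Vale.Agent.P077

noncomputable def ww (r : ℕ) : ℝ := (r : ℝ) ^ (-(3 / 4) : ℝ)

lemma ww_nonneg (r : ℕ) : 0 ≤ ww r := Real.rpow_nonneg (Nat.cast_nonneg _) _

lemma ww_mul (r g : ℕ) : ww (r * g) = ww r * ww g := by
  unfold ww; push_cast
  exact Real.mul_rpow (Nat.cast_nonneg _) (Nat.cast_nonneg _)

lemma ww_le_one {r : ℕ} (hr : 1 ≤ r) : ww r ≤ 1 :=
  Real.rpow_le_one_of_one_le_of_nonpos (by exact_mod_cast hr) (by norm_num)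

lemma ww_one : ww 1 = 1 := by simp [ww]

lemma ww_pow {r : ℕ} (hr : 1 ≤ r) : ww r ^ 4 * (r : ℝ) ^ 3 = 1 := by
  have h : (0 : ℝ) < r := by exact_mod_cast hr
  unfold ww
  rw [← Real.rpow_natCast, ← Real.rpow_mul h.le, ← Real.rpow_natCast, ← Real.rpow_add h]
  norm_num

lemma ww_ge {r : ℕ} (hr : 1 ≤ r) {a : ℝ} (ha : 0 ≤ a) (h : a ^ 4 * (r : ℝ) ^ 3 ≤ 1) :
    a ≤ ww r := by
  have h0 : (0 : ℝ) < (r : ℝ) ^ 3 := by
    have : (0 : ℝ) < r := by exact_mod_cast hr
    positivity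
  refine le_of_pow_le_pow_left₀ (n := 4) (by norm_num) (ww_nonneg r) ?_
  rw [← ww_pow hr] at h
  exact le_of_mul_le_mul_right h h0

def PP (y : ℕ) : Finset ℕ := Nat.primesLE (y ^ 150)

lemma mem_PP {y n : ℕ} : n ∈ PP y ↔ n ≤ y ^ 150 ∧ n.Prime := Nat.mem_primesLE

def Rough (y q : ℕ) : Prop := ∀ p, p.Prime → p ∣ q → y ^ 1350 < p

lemma Rough.dvd {y q r : ℕ} (h : Rough y q) (hr : r ∣ q) : Rough y r :=
  fun p hp hpr => h p hp (hpr.trans hr)

lemma Rough.coprime {y q n : ℕ} (hy : 1 ≤ y) (h : Rough y q) (hn : n ∈ PP y) : n.Coprime q := by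
  obtain ⟨h1, h2⟩ := mem_PP.mp hn
  rw [Nat.Prime.coprime_iff_not_dvd h2]
  intro hd
  have := h n h2 hd
  have : y ^ 150 ≤ y ^ 1350 := Nat.pow_le_pow_right hy (by norm_num)
  omega

lemma Rough.lt {y q : ℕ} (h : Rough y q) (hq0 : q ≠ 0) (hq : q ≠ 1) : y ^ 1350 < q :=
  lt_of_lt_of_le (h _ (Nat.minFac_prime hq) (Nat.minFac_dvd q))
    (Nat.minFac_le (Nat.pos_of_ne_zero hq0))

lemma tuple_count (y J : ℕ) (p : (Fin J → PP y) → Prop)
    (hp : ∀ t t', p t → p t' → ∏ i, (t i : ℕ) = ∏ i, (t' i : ℕ)) :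
    avg (fun t => ind (p t)) ≤ ((J : ℝ) / (PP y).card) ^ J := by
  classical
  by_cases h : ∃ t, p t
  · obtain ⟨t₀, h₀⟩ := h
    have h1 : ∀ t, ind (p t) ≤
        ∏ i, (fun (_ : Fin J) (n : PP y) => ind (n ∈ Finset.univ.image t₀)) i (t i) := by
      intro t
      simp only
      rw [← ind_forall]
      refine ind_mono fun ht i _ => ?_
      have hpr := (mem_PP.mp (t i).2).2
      have hd : (t i : ℕ) ∣ ∏ k, (t₀ k : ℕ) := by
        rw [← hp t t₀ ht h₀]; exact Finset.dvd_prod_of_mem _ (Finset.mem_univ i)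
      obtain ⟨k, -, hk⟩ := (Prime.dvd_finsetProd_iff hpr.prime _).mp hd
      have := (Nat.prime_dvd_prime_iff_eq hpr (mem_PP.mp (t₀ k).2).2).mp hk
      exact Finset.mem_image.mpr ⟨k, Finset.mem_univ _, Subtype.ext this.symm⟩
    refine le_trans (avg_mono h1) ?_
    rw [avg_pi (fun (_ : Fin J) (n : PP y) => ind (n ∈ Finset.univ.image t₀)), Finset.prod_const,
      Finset.card_univ, Fintype.card_fin]
    refine pow_le_pow_left₀ (avg_nonneg fun _ => ind_nonneg _) ?_ _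
    unfold avg
    rw [Fintype.card_coe]
    refine div_le_div_of_nonneg_right ?_ (Nat.cast_nonneg _)
    have : ∑ n : PP y, ind (n ∈ Finset.univ.image t₀) = ((Finset.univ.image t₀).card : ℝ) := by
      rw [← Finset.sum_subset (Finset.subset_univ (Finset.univ.image t₀))
        (fun n _ hn => ind_neg hn)]
      rw [Finset.sum_congr rfl fun n hn => ind_pos hn]; simp
    rw [this]
    have := Finset.card_image_le (s := Finset.univ) (f := t₀)
    rw [Finset.card_univ, Fintype.card_fin] at this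
    exact_mod_cast this
  · have : ∀ t, ind (p t) = 0 := fun t => ind_neg fun ht => h ⟨t, ht⟩
    rw [avg_congr this]
    simp only [avg, Finset.sum_const_zero, zero_div]; positivity

section
variable {q : ℕ} [NeZero q]

lemma ord_unit (u : (ZMod q)ˣ) (B : ZMod q) : addOrderOf ((u : ZMod q) * B) = addOrderOf B := by
  rw [addOrderOf_eq_addOrderOf_iff]
  intro n
  rw [← mul_smul_comm, Units.mul_right_eq_zero]

noncomputable def NN (φ : ZMod q → ℝ) (n : ℕ) : ℝ :=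
  ∑ B ∈ Finset.univ.erase 0, φ B * φ ((n : ZMod q) * B)

noncomputable def Vol (φ : ZMod q → ℝ) : ℝ :=
  ∑ B ∈ Finset.univ.erase 0, φ B ^ 2 + ∑ r ∈ q.divisors.erase 1,
    ww r * (∑ B ∈ Finset.univ.filter (fun B : ZMod q => addOrderOf B = r), φ B) ^ 2

lemma sum_classes (f : ZMod q → ℝ) : ∑ B ∈ Finset.univ.erase 0, f B =
    ∑ r ∈ q.divisors.erase 1, ∑ B, if addOrderOf B = r then f B else 0 := by
  rw [← Finset.sum_fiberwise_of_maps_to (s := Finset.univ.erase 0) (t := q.divisors.erase 1)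
    (g := fun B : ZMod q => addOrderOf B)]
  · refine Finset.sum_congr rfl fun r hr => ?_
    rw [← Finset.sum_filter]
    refine Finset.sum_congr ?_ fun _ _ => rfl
    ext B
    simp only [Finset.mem_filter, Finset.mem_erase, Finset.mem_univ, and_true, true_and]
    refine ⟨fun h => h.2, fun h => ⟨?_, h⟩⟩
    rintro rfl
    rw [addOrderOf_zero] at h
    exact (Finset.mem_erase.mp hr).1 h.symm
  · intro B hB
    rw [Finset.mem_erase, Nat.mem_divisors]
    refine ⟨fun h => (Finset.mem_erase.mp hB).1 (AddMonoid.addOrderOf_eq_one_iff.mp h), ?_,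
      NeZero.ne q⟩
    have := addOrderOf_dvd_card (x := B)
    rwa [ZMod.card] at this

lemma class_expand (y : ℕ) (hy : 2 ≤ y) (hP : y ^ 149 ≤ (PP y).card) (hq : Rough y q)
    (hX : q ≤ 2 ^ (y ^ 2)) (φ : ZMod q → ℝ) (hφ : ∀ B, 0 ≤ φ B) :
    avg (fun n : PP y => NN φ n) ≤ 1 / (y : ℝ) ^ 11 * Vol φ := by
  have hyr : (2 : ℝ) ≤ y := by exact_mod_cast hy
  haveI : Nonempty (PP y) := by
    have : 0 < (PP y).card := lt_of_lt_of_le (Nat.pow_pos (by omega)) hP
    obtain ⟨n, hn⟩ := Finset.card_pos.mp this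
    exact ⟨⟨n, hn⟩⟩
  let u : PP y → (ZMod q)ˣ := fun n => ZMod.unitOfCoprime n (hq.coprime (by omega) n.2)
  have hu : ∀ n, (u n : ZMod q) = ((n : ℕ) : ZMod q) := fun n => ZMod.coe_unitOfCoprime _ _
  let φr : ℕ → ZMod q → ℝ := fun r B => if addOrderOf B = r then φ B else 0
  have h1 : ∀ n : PP y, NN φ n = ∑ r ∈ q.divisors.erase 1, ∑ B, φr r B * φr r (u n • B) := by
    intro n
    unfold NN
    rw [sum_classes]
    refine Finset.sum_congr rfl fun r _ => Finset.sum_congr rfl fun B _ => ?_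
    simp only [φr, Units.smul_def, smul_eq_mul, ord_unit]
    rw [hu]
    split_ifs <;> simp
  have h2 : Vol φ = ∑ r ∈ q.divisors.erase 1, (∑ B, φr r B ^ 2 + ww r * (∑ B, φr r B) ^ 2) := by
    unfold Vol
    rw [Finset.sum_add_distrib, sum_classes]
    congr 1
    · refine Finset.sum_congr rfl fun r _ => Finset.sum_congr rfl fun B _ => ?_
      simp only [φr]; split_ifs <;> simp
    · refine Finset.sum_congr rfl fun r _ => ?_
      rw [Finset.sum_filter]
  rw [avg_congr h1, avg_sum, h2, Finset.mul_sum]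
  refine Finset.sum_le_sum fun r hr => ?_
  obtain ⟨hr1, hr2⟩ := Finset.mem_erase.mp hr
  have hrq : r ∣ q := Nat.dvd_of_mem_divisors hr2
  have hr0 : r ≠ 0 := (Nat.pos_of_mem_divisors hr2).ne'
  have hrl := (hq.dvd hrq).lt hr0 hr1
  have hrX : r ≤ 2 ^ (y ^ 2) := le_trans (Nat.divisor_le hr2) hX
  have hY : 1 < y ^ 150 := Nat.one_lt_pow (by norm_num) (by omega)
  set J := Nat.log (y ^ 150) r with hJ
  have hJ1 : (y ^ 150) ^ J ≤ r := Nat.pow_log_le_self _ hr0
  have hJ2 : r < (y ^ 150) ^ (J + 1) := Nat.lt_pow_succ_log_self hY r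
  have hJ9 : 9 ≤ J := by
    by_contra hlt
    have : (y ^ 150) ^ (J + 1) ≤ (y ^ 150) ^ 9 := Nat.pow_le_pow_right (by omega) (by omega)
    rw [← pow_mul y 150 9] at this
    norm_num at this
    omega
  have hJy : J ≤ y ^ 2 := by
    have : 2 ^ J ≤ (y ^ 150) ^ J := Nat.pow_le_pow_left hY _
    exact (Nat.pow_le_pow_iff_right (by norm_num : 1 < 2)).mp (this.trans (hJ1.trans hrX))
  obtain ⟨j, hj⟩ : ∃ j, J = j + 1 := ⟨J - 1, by omega⟩
  refine expand u (φr r) (fun B => by simp only [φr]; split_ifs; exacts [hφ B, le_rfl]) j _ _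
    (by positivity) (ww_nonneg r) fun B c hc => ?_
  have hc' : addOrderOf c = r := by
    by_contra h; simp [φr, h] at hc
  refine le_trans (tuple_count y (j + 1) _ fun t t' ht ht' => ?_) ?_
  · have hle : ∀ t : Fin (j + 1) → PP y, ∏ i, (t i : ℕ) ≤ r := by
      intro t
      refine le_trans (Finset.prod_le_pow_card _ _ (y ^ 150) fun i _ => (mem_PP.mp (t i).2).1) ?_
      rw [Finset.card_univ, Fintype.card_fin, ← hj]; exact hJ1
    have hpos : ∀ t : Fin (j + 1) → PP y, 0 < ∏ i, (t i : ℕ) :=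
      fun t => Finset.prod_pos fun i _ => (mem_PP.mp (t i).2).2.pos
    have hB : addOrderOf B = r := by
      rw [← hc', ← ht, Units.smul_def, smul_eq_mul, ord_unit]
    have e : ∀ t : Fin (j + 1) → PP y, (∏ i, u (t i)) • B = (∏ i, (t i : ℕ)) • B := by
      intro t
      rw [Units.smul_def, smul_eq_mul, nsmul_eq_mul]
      push_cast
      simp only [hu]
    rw [e] at ht ht'
    have hm : (∏ i, (t i : ℕ)) ≡ (∏ i, (t' i : ℕ)) [MOD r] := by
      rw [← hB, ← nsmul_eq_nsmul_iff_modEq, ht, ht']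
    have a1 := hle t
    have a2 := hle t'
    have b1 := hpos t
    have b2 := hpos t'
    have hm' : (∏ i, (t i : ℕ)) - 1 ≡ (∏ i, (t' i : ℕ)) - 1 [MOD r] := by
      apply Nat.ModEq.add_right_cancel' 1
      rwa [Nat.sub_add_cancel b1, Nat.sub_add_cancel b2]
    have := Nat.ModEq.eq_of_lt_of_lt hm' (by omega) (by omega)
    omega
  · rw [← hj]
    have hPr : (y : ℝ) ^ 149 ≤ (PP y).card := by exact_mod_cast hP
    have hJr : (J : ℝ) ≤ (y : ℝ) ^ 2 := by exact_mod_cast hJy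
    have a1 : (J : ℝ) / (PP y).card ≤ 1 / (y : ℝ) ^ 147 := by
      calc (J : ℝ) / (PP y).card ≤ (y : ℝ) ^ 2 / (y : ℝ) ^ 149 := by gcongr
        _ = _ := by field_simp
    have a2 : (1 / (y : ℝ) ^ 125) ^ J ≤ ww r := by
      refine ww_ge (by omega) (by positivity) ?_
      have b1 : r ^ 3 ≤ y ^ (500 * J) := by
        calc r ^ 3 ≤ ((y ^ 150) ^ (J + 1)) ^ 3 := Nat.pow_le_pow_left hJ2.le _
          _ = y ^ (150 * (J + 1) * 3) := by rw [← pow_mul, ← pow_mul, mul_assoc]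
          _ ≤ _ := Nat.pow_le_pow_right (by omega) (by omega)
      have b2 : (r : ℝ) ^ 3 ≤ (y : ℝ) ^ (500 * J) := by exact_mod_cast b1
      have b3 : ((1 / (y : ℝ) ^ 125) ^ J) ^ 4 = 1 / (y : ℝ) ^ (500 * J) := by
        rw [← pow_mul, one_div_pow, ← pow_mul]; congr 2; ring
      rw [b3, one_div, inv_mul_le_iff₀ (by positivity), mul_one]; exact b2
    calc ((J : ℝ) / (PP y).card) ^ J ≤ (1 / (y : ℝ) ^ 147) ^ J :=
          pow_le_pow_left₀ (by positivity) a1 _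
      _ = (1 / (y : ℝ) ^ 11) ^ (2 * J) * (1 / (y : ℝ) ^ 125) ^ J := by
          rw [pow_mul, ← mul_pow]; congr 1; field_simp
      _ ≤ _ := mul_le_mul_of_nonneg_left a2 (by positivity)

lemma NN_nonneg (φ : ZMod q → ℝ) (hφ : ∀ B, 0 ≤ φ B) (n : ℕ) : 0 ≤ NN φ n :=
  Finset.sum_nonneg fun _ _ => mul_nonneg (hφ _) (hφ _)

lemma markov (y : ℕ) (hy : 2 ≤ y) (hP : y ^ 149 ≤ (PP y).card) (hq : Rough y q)
    (hX : q ≤ 2 ^ (y ^ 2)) (φ : ZMod q → ℝ) (hφ : ∀ B, 0 ≤ φ B) :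
    avg (fun n : PP y => ind (¬ NN φ n ≤ 1 / (y : ℝ) ^ 5 * Vol φ)) ≤ 1 / (y : ℝ) ^ 6 := by
  have hyr : (2 : ℝ) ≤ y := by exact_mod_cast hy
  have h := class_expand y hy hP hq hX φ hφ
  have hV : 0 ≤ Vol φ := add_nonneg (Finset.sum_nonneg fun _ _ => sq_nonneg _)
    (Finset.sum_nonneg fun _ _ => mul_nonneg (ww_nonneg _) (sq_nonneg _))
  rcases hV.eq_or_lt with h0 | hpos
  · have : ∀ n : PP y, ind (¬ NN φ n ≤ 1 / (y : ℝ) ^ 5 * Vol φ) = 0 := by
      intro n
      refine ind_neg (not_not.mpr ?_)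
      rw [← h0, mul_zero] at h ⊢
      unfold avg at h
      have hc : (0 : ℝ) < Fintype.card (PP y) := by
        exact_mod_cast Fintype.card_pos_iff.mpr ⟨n⟩
      rw [div_le_iff₀ hc, zero_mul] at h
      exact le_trans (Finset.single_le_sum (f := fun n : PP y => NN φ n)
        (fun m _ => NN_nonneg φ hφ m) (Finset.mem_univ n)) h
    rw [avg_congr this]
    simp only [avg, Finset.sum_const_zero, zero_div]; positivity
  · have h1 : ∀ n : PP y, ind (¬ NN φ n ≤ 1 / (y : ℝ) ^ 5 * Vol φ)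
        ≤ NN φ n * ((y : ℝ) ^ 5 / Vol φ) := by
      intro n
      by_cases hn : NN φ n ≤ 1 / (y : ℝ) ^ 5 * Vol φ
      · rw [ind_neg (not_not.mpr hn)]
        exact mul_nonneg (NN_nonneg φ hφ n) (by positivity)
      · rw [ind_pos hn, ← mul_div_assoc, le_div_iff₀ hpos]
        rw [not_le, one_div, inv_mul_lt_iff₀ (by positivity)] at hn
        linarith
    refine le_trans (avg_mono h1) ?_
    rw [avg_mul_const]
    calc _ ≤ 1 / (y : ℝ) ^ 11 * Vol φ * ((y : ℝ) ^ 5 / Vol φ) :=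
          mul_le_mul_of_nonneg_right h (by positivity)
      _ = _ := by field_simp

end

end Vale.Agent.P012
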