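import Vale.Agent.P012.Walk

namespace Vale.Agent.P012

open Finset Vale.Agent.P077

def Good (y I x : ℕ) (l : List ℕ) (n : ℕ) : Prop :=
  ∀ q ∈ x.divisors, ∀ _ : NeZero q,
    (∀ i ∈ range (I + 1), NN (ph l q i) n ≤ 1 / (y : ℝ) ^ 5 * Vol (ph l q i)) ∧
    NN (fun h => AA l q h ^ 2 ^ (I + 1)) n
      ≤ 1 / (y : ℝ) ^ 5 * Vol (fun h => AA l q h ^ 2 ^ (I + 1))

open Classical in
noncomputable def gc (y I x : ℕ) : List ℕ → ℕ
  | [] => 0
  | n :: l => gc y I x l + if Good y I x l n then 1 else 0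

open Classical in
noncomputable def bc (y I x : ℕ) : List ℕ → ℕ
  | [] => 0
  | n :: l => bc y I x l + if Good y I x l n then 0 else 1

lemma gc_add_bc (y I x : ℕ) : ∀ l, gc y I x l + bc y I x l = l.length
  | [] => rfl
  | n :: l => by
    have := gc_add_bc y I x l
    simp only [gc, bc, List.length_cons]
    split_ifs <;> omega

structure Hy (y I L X : ℕ) : Prop where
  h8 : 8 ≤ y
  hP : y ^ 149 ≤ (PP y).card
  hX : X ≤ 2 ^ (y ^ 2)
  h4 : 8 * 4 ^ (2 ^ (I + 1)) ≤ y ^ 5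
  hI : 2 ^ I ≤ y
  hI2 : I + 2 ≤ y
  hL : y ^ 576 ≤ 2 ^ L
  hX2 : (4 / 5 : ℝ) ^ (2 ^ I * L) * X ≤ 1
  hX3 : 3 ≤ X

def Md (y X x : ℕ) : Prop := x ≠ 0 ∧ x ≤ X ∧ Rough y x ∧ x.divisors.card ≤ y ^ 3

variable {y I L X x : ℕ}

lemma bad_prob (H : Hy y I L X) (hx : Md y X x) (l : List ℕ) :
    avg (fun n : PP y => ind (¬ Good y I x l n)) ≤ 1 / (y : ℝ) ^ 2 := by
  obtain ⟨hx0, hxX, hR, hτ⟩ := hx
  have hy : (8 : ℝ) ≤ y := by exact_mod_cast H.h8
  let b1 : ℕ → ℕ → ℕ → Prop := fun q i n => ∃ _ : NeZero q,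
    ¬ NN (ph l q i) n ≤ 1 / (y : ℝ) ^ 5 * Vol (ph l q i)
  let b2 : ℕ → ℕ → Prop := fun q n => ∃ _ : NeZero q,
    ¬ NN (fun h => AA l q h ^ 2 ^ (I + 1)) n
      ≤ 1 / (y : ℝ) ^ 5 * Vol (fun h => AA l q h ^ 2 ^ (I + 1))
  have h1 : ∀ n : PP y, ind (¬ Good y I x l n) ≤
      ∑ q ∈ x.divisors, (∑ i ∈ range (I + 1), ind (b1 q i n) + ind (b2 q n)) := by
    intro n
    refine le_trans (ind_mono (q := ∃ q ∈ x.divisors, (∃ i ∈ range (I + 1), b1 q i n) ∨ b2 q n) ?_)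
      (le_trans (ind_exists_le _ _) (Finset.sum_le_sum fun q _ =>
        le_trans (ind_or_le _ _) (add_le_add (ind_exists_le _ _) le_rfl)))
    intro h
    simp only [Good, not_forall, not_and_or] at h
    obtain ⟨q, hq, inst, h | h⟩ := h
    · obtain ⟨i, hi, h⟩ := h
      exact ⟨q, hq, Or.inl ⟨i, hi, inst, h⟩⟩
    · exact ⟨q, hq, Or.inr ⟨inst, h⟩⟩
  refine le_trans (avg_mono h1) ?_
  rw [avg_sum]
  have h2 : ∀ q ∈ x.divisors, avg (fun n : PP y =>
      ∑ i ∈ range (I + 1), ind (b1 q i n) + ind (b2 q n)) ≤ y * (1 / (y : ℝ) ^ 6) := by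
    intro q hq
    haveI : NeZero q := ⟨(Nat.pos_of_mem_divisors hq).ne'⟩
    have hqR := hR.dvd (Nat.dvd_of_mem_divisors hq)
    have hqX : q ≤ 2 ^ (y ^ 2) := (Nat.divisor_le hq).trans (hxX.trans H.hX)
    have hy2 : 2 ≤ y := by have := H.h8; omega
    rw [avg_add, avg_sum]
    have a1 : ∀ i ∈ range (I + 1), avg (fun n : PP y => ind (b1 q i n)) ≤ 1 / (y : ℝ) ^ 6 :=
      fun i _ => le_trans (avg_mono fun n => ind_mono fun ⟨_, h⟩ => h)
        (markov y hy2 H.hP hqR hqX _ (ph_nonneg l q i))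
    have a2 : avg (fun n : PP y => ind (b2 q n)) ≤ 1 / (y : ℝ) ^ 6 :=
      le_trans (avg_mono fun n => ind_mono fun ⟨_, h⟩ => h)
        (markov y hy2 H.hP hqR hqX _ (fun h => pow_nonneg (AA_nonneg _ _ _) _))
    have a3 := Finset.sum_le_card_nsmul _ _ _ a1
    rw [card_range, nsmul_eq_mul] at a3
    have a4 : ((I + 1 : ℕ) : ℝ) + 1 ≤ y := by exact_mod_cast H.hI2
    have a5 : (0 : ℝ) ≤ 1 / (y : ℝ) ^ 6 := by positivity
    nlinarith
  refine le_trans (Finset.sum_le_card_nsmul _ _ _ h2) ?_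
  rw [nsmul_eq_mul]
  have : (x.divisors.card : ℝ) ≤ (y : ℝ) ^ 3 := by exact_mod_cast hτ
  calc _ ≤ (y : ℝ) ^ 3 * (y * (1 / (y : ℝ) ^ 6)) := by gcongr
    _ = _ := by field_simp

noncomputable def KK (y : ℕ) : ℕ → ℝ
  | 0 => 1
  | i + 1 => (y : ℝ) ^ 4 * 4 ^ (2 ^ (i + 1)) * KK y i ^ 2

lemma KK_eq (y i : ℕ) : KK y i * (y : ℝ) ^ 4 = ((y : ℝ) ^ 4 * 4 ^ i) ^ (2 ^ i) := by
  induction i with
  | zero => simp [KK]
  | succ i ih =>
    rw [KK]
    calc _ = 4 ^ (2 ^ (i + 1)) * (KK y i * (y : ℝ) ^ 4) ^ 2 := by ring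
      _ = _ := by
        rw [ih, ← pow_mul, ← pow_succ, ← mul_pow]; congr 1; ring

lemma one_le_KK (hy : 1 ≤ y) (i : ℕ) : 1 ≤ KK y i := by
  have hy' : (1 : ℝ) ≤ y := by exact_mod_cast hy
  induction i with
  | zero => simp [KK]
  | succ i ih =>
    rw [KK]
    exact one_le_mul_of_one_le_of_one_le (one_le_mul_of_one_le_of_one_le (one_le_pow₀ hy')
      (one_le_pow₀ (by norm_num))) (one_le_pow₀ ih)

noncomputable def mm (i g q : ℕ) : ℝ := (4 / 5) ^ (2 ^ i * g) + ww q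

lemma mm_nonneg (i g q : ℕ) : 0 ≤ mm i g q := add_nonneg (by positivity) (ww_nonneg q)

lemma mm_succ (i g q : ℕ) : (4 / 5) ^ (2 ^ i) * mm i g q ≤ mm i (g + 1) q := by
  unfold mm
  rw [mul_add, ← pow_add, mul_add, mul_one, add_comm (2 ^ i)]
  have : ((4 : ℝ) / 5) ^ (2 ^ i) ≤ 1 := pow_le_one₀ (by norm_num) (by norm_num)
  nlinarith [ww_nonneg q]

lemma coef {a : ℕ} (ha : 2 ≤ a) (h : 8 * 4 ^ a ≤ y ^ 5) :
    2 * (4 / 9 : ℝ) ^ a + 3 ^ a * (1 / (y : ℝ) ^ 5) ≤ 3 / 4 * (4 / 5) ^ a ∧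
      (3 : ℝ) ^ a * (1 / (y : ℝ) ^ 5) ≤ 1 / 8 * (4 / 5) ^ a := by
  have h1 : (8 : ℝ) * 4 ^ a ≤ (y : ℝ) ^ 5 := by exact_mod_cast h
  have h2 : (3 : ℝ) ^ a ≤ 4 ^ a * (4 / 5) ^ a := by
    rw [← mul_pow]; exact pow_le_pow_left₀ (by norm_num) (by norm_num) a
  have h3 : (3 : ℝ) ^ a * (1 / (y : ℝ) ^ 5) ≤ 1 / 8 * (4 / 5) ^ a := by
    have hp : (0 : ℝ) < 8 * 4 ^ a := by positivity
    calc (3 : ℝ) ^ a * (1 / (y : ℝ) ^ 5) ≤ (4 ^ a * (4 / 5) ^ a) * (1 / (8 * 4 ^ a)) := by gcongr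
      _ = _ := by field_simp
  refine ⟨?_, h3⟩
  have h4 : (4 / 9 : ℝ) ^ a = (5 / 9) ^ a * (4 / 5) ^ a := by rw [← mul_pow]; norm_num
  have h5 : (5 / 9 : ℝ) ^ a ≤ (5 / 9) ^ 2 := pow_le_pow_of_le_one (by norm_num) (by norm_num) ha
  have h6 : (0 : ℝ) ≤ (4 / 5) ^ a := by positivity
  rw [h4]; nlinarith

lemma coef' (H : Hy y I L X) {i : ℕ} (hi : i ≤ I) :
    2 * (4 / 9 : ℝ) ^ (2 ^ (i + 1)) + 3 ^ (2 ^ (i + 1)) * (1 / (y : ℝ) ^ 5)
      ≤ 3 / 4 * (4 / 5) ^ (2 ^ (i + 1)) ∧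
      (3 : ℝ) ^ (2 ^ (i + 1)) * (1 / (y : ℝ) ^ 5) ≤ 1 / 8 * (4 / 5) ^ (2 ^ (i + 1)) := by
  refine coef ?_ (le_trans (Nat.mul_le_mul_left _ (Nat.pow_le_pow_right (by norm_num)
    (Nat.pow_le_pow_right (by norm_num) (by omega)))) H.h4)
  have := Nat.one_le_two_pow (n := i)
  rw [pow_succ]; omega

def Inv1 (y I x : ℕ) (l : List ℕ) (g : ℕ) : Prop :=
  ∀ q ∈ x.divisors, ∀ i ≤ I, ee l i q ≤ KK y i * mm i g q

lemma inv1_good (H : Hy y I L X) (hx : Md y X x) (l : List ℕ) (hl : l.prod.Coprime x) {n : ℕ}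
    (hn : n.Coprime x) (g : ℕ) (hI : Inv1 y I x l g) (hG : Good y I x l n) :
    Inv1 y I x (n :: l) (g + 1) := by
  obtain ⟨hx0, hxX, hR, hτ⟩ := hx
  have hy : (8 : ℝ) ≤ y := by exact_mod_cast H.h8
  have hy1 : 1 ≤ y := by have := H.h8; omega
  have hθ : 1 / (y : ℝ) ^ 5 ≤ 1 / 8 := by
    apply one_div_le_one_div_of_le (by norm_num)
    calc (8 : ℝ) ≤ y := hy
      _ ≤ (y : ℝ) ^ 5 := le_self_pow₀ (by linarith) (by norm_num)
  have hθ0 : 0 ≤ 1 / (y : ℝ) ^ 5 := by positivity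
  intro q hq i hi
  haveI : NeZero q := ⟨(Nat.pos_of_mem_divisors hq).ne'⟩
  have hqx := Nat.dvd_of_mem_divisors hq
  have hnq : n.Coprime q := hn.coprime_dvd_right hqx
  have hGq := (hG q hq inferInstance).1 i (Finset.mem_range.mpr (by omega))
  have hs := mm_succ i g q
  have hm := mm_nonneg i g q
  cases i with
  | zero =>
    by_cases hq1 : q = 1
    · subst hq1
      refine le_trans (ee_le_one _ _ _) ?_
      simp only [KK, mm, ww_one, one_mul]
      exact le_add_of_nonneg_left (by positivity)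
    · have h1 := step_zero hq1 hnq l (hl.coprime_dvd_right hqx) _ hθ0 hGq
      have h2 := hI q hq 0 hi
      simp only [KK, one_mul, pow_zero, pow_one] at h2 hs ⊢
      have h3 : ww q ≤ mm 0 g q := le_add_of_nonneg_left (by positivity)
      have h4 := ee_nonneg l 0 q
      have h5 := ww_nonneg q
      nlinarith
  | succ i =>
    have h1 := step_succ hnq l i _ hθ0 (by linarith) hGq
    have h2 := hI q hq (i + 1) hi
    have hc := (coef' H (show i ≤ I by omega)).1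
    have hK := one_le_KK hy1 i
    have hK' := one_le_KK hy1 (i + 1)
    have h3 : ∀ r ∈ q.divisors, ww r * ee l i (q / r) ^ 2 ≤ 2 * KK y i ^ 2 * mm (i + 1) g q := by
      intro r hr
      have hd := Nat.dvd_of_mem_divisors hr
      have hq' : q / r ∈ x.divisors :=
        Nat.mem_divisors.mpr ⟨(Nat.div_dvd_of_dvd hd).trans hqx, hx0⟩
      have a1 := pow_le_pow_left₀ (ee_nonneg _ _ _) (hI (q / r) hq' i (by omega)) 2
      have a2 : ww q = ww r * ww (q / r) := by rw [← ww_mul, Nat.mul_div_cancel' hd]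
      have a3 := ww_le_one (Nat.pos_of_mem_divisors hr)
      have a4 := ww_le_one (Nat.pos_of_mem_divisors hq')
      have a5 := ww_nonneg r
      have a6 := ww_nonneg (q / r)
      have a7 : ww r * mm i g (q / r) ^ 2 ≤ 2 * mm (i + 1) g q := by
        unfold mm
        have e : ((4 : ℝ) / 5) ^ (2 ^ (i + 1) * g) = ((4 / 5) ^ (2 ^ i * g)) ^ 2 := by
          rw [← pow_mul]; congr 1; ring
        rw [e, a2]
        set u : ℝ := (4 / 5) ^ (2 ^ i * g)
        have b1 : (u + ww (q / r)) ^ 2 ≤ 2 * (u ^ 2 + ww (q / r) ^ 2) := by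
          nlinarith [sq_nonneg (u - ww (q / r))]
        have b2 : ww r * u ^ 2 ≤ u ^ 2 := by nlinarith [sq_nonneg u]
        have b3 : ww r * ww (q / r) ^ 2 ≤ ww r * ww (q / r) := by
          apply mul_le_mul_of_nonneg_left _ a5; nlinarith
        nlinarith [mul_le_mul_of_nonneg_left b1 a5]
      calc _ ≤ ww r * (KK y i * mm i g (q / r)) ^ 2 := mul_le_mul_of_nonneg_left a1 a5
        _ = KK y i ^ 2 * (ww r * mm i g (q / r) ^ 2) := by ring
        _ ≤ KK y i ^ 2 * (2 * mm (i + 1) g q) := mul_le_mul_of_nonneg_left a7 (by positivity)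
        _ = _ := by ring
    have h4 := Finset.sum_le_card_nsmul _ _ _ h3
    rw [nsmul_eq_mul] at h4
    have h5 : (q.divisors.card : ℝ) ≤ (y : ℝ) ^ 3 := by
      exact_mod_cast (Finset.card_le_card (Nat.divisors_subset_of_dvd hx0 hqx)).trans hτ
    have h6 : (3 : ℝ) ^ (2 ^ (i + 1)) ≤ 4 ^ (2 ^ (i + 1)) * (4 / 5) ^ (2 ^ (i + 1)) := by
      rw [← mul_pow]; exact pow_le_pow_left₀ (by norm_num) (by norm_num) _
    set ρ : ℝ := (4 / 5) ^ (2 ^ (i + 1))
    have hρ : 0 ≤ ρ := by positivity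
    have h7 : 3 ^ (2 ^ (i + 1)) * ∑ r ∈ q.divisors, ww r * ee l i (q / r) ^ 2
        ≤ 1 / 4 * ρ * (KK y (i + 1) * mm (i + 1) g q) := by
      calc _ ≤ (4 ^ (2 ^ (i + 1)) * ρ) * ((y : ℝ) ^ 3 * (2 * KK y i ^ 2 * mm (i + 1) g q)) := by
            refine mul_le_mul h6 (h4.trans (by gcongr))
              (Finset.sum_nonneg fun r _ => mul_nonneg (ww_nonneg r) (sq_nonneg _)) (by positivity)
        _ = 1 / 4 * ρ * ((8 * (y : ℝ) ^ 3) * 4 ^ (2 ^ (i + 1)) * KK y i ^ 2 * mm (i + 1) g q) := by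
            ring
        _ ≤ 1 / 4 * ρ * ((y * (y : ℝ) ^ 3) * 4 ^ (2 ^ (i + 1)) * KK y i ^ 2 * mm (i + 1) g q) := by
            gcongr
        _ = _ := by rw [KK]; ring
    have h8 := mul_le_mul hc h2 (ee_nonneg _ _ _) (by positivity)
    have h9 := mul_le_mul_of_nonneg_left hs (show 0 ≤ KK y (i + 1) by linarith)
    nlinarith

lemma small (H : Hy y I L X) (hx : Md y X x) (l : List ℕ) (g : ℕ) (hg : L ≤ g)
    (hI : Inv1 y I x l g) (r : ℕ) (hr : r ∈ x.divisors.erase 1) :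
    ww r * (r * ee l I r) ^ 2 ≤ 1 / (y : ℝ) ^ 3 := by
  classical
  obtain ⟨hx0, hxX, hR, hτ⟩ := hx
  obtain ⟨hr1, hr⟩ := Finset.mem_erase.mp hr
  have hy : (8 : ℝ) ≤ y := by exact_mod_cast H.h8
  have hy1 : 1 ≤ y := by have := H.h8; omega
  have hr0 := Nat.pos_of_mem_divisors hr
  haveI : NeZero r := ⟨hr0.ne'⟩
  have hrr : (1 : ℝ) ≤ r := by exact_mod_cast hr0
  have hrX : (r : ℝ) ≤ X := by exact_mod_cast (Nat.divisor_le hr).trans hxX
  have hex : ∃ i, (4 / 5 : ℝ) ^ (2 ^ i * L) ≤ ww r := by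
    refine ⟨I, ww_ge hr0 (by positivity) ?_⟩
    set u : ℝ := (4 / 5) ^ (2 ^ I * L)
    have u0 : 0 ≤ u := by positivity
    have u1 : u ≤ 1 := pow_le_one₀ (by norm_num) (by norm_num)
    have u2 : u * r ≤ 1 := le_trans (mul_le_mul_of_nonneg_left hrX u0) H.hX2
    calc u ^ 4 * (r : ℝ) ^ 3 = u * (u * r) ^ 3 := by ring
      _ ≤ 1 * 1 := mul_le_mul u1 (pow_le_one₀ (by positivity) u2) (by positivity) (by norm_num)
      _ = 1 := by ring
  have hiI : Nat.find hex ≤ I := Nat.find_min' hex (by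
    refine ww_ge hr0 (by positivity) ?_
    set u : ℝ := (4 / 5) ^ (2 ^ I * L)
    have u0 : 0 ≤ u := by positivity
    have u1 : u ≤ 1 := pow_le_one₀ (by norm_num) (by norm_num)
    have u2 : u * r ≤ 1 := le_trans (mul_le_mul_of_nonneg_left hrX u0) H.hX2
    calc u ^ 4 * (r : ℝ) ^ 3 = u * (u * r) ^ 3 := by ring
      _ ≤ 1 * 1 := mul_le_mul u1 (pow_le_one₀ (by positivity) u2) (by positivity) (by norm_num)
      _ = 1 := by ring)
  have hspec := Nat.find_spec hex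
  have hmin := fun m => Nat.find_min hex (m := m)
  set i := Nat.find hex
  have hK1 := one_le_KK hy1 i
  have h1 : ee l I r ≤ 2 * KK y i * ww r := by
    refine le_trans (ee_anti l hiI r) (le_trans (hI r hr i hiI) ?_)
    have : (4 / 5 : ℝ) ^ (2 ^ i * g) ≤ (4 / 5) ^ (2 ^ i * L) :=
      pow_le_pow_of_le_one (by norm_num) (by norm_num) (Nat.mul_le_mul_left _ hg)
    unfold mm
    nlinarith
  have hw := ww_pow hr0
  have hw0 := ww_nonneg r
  have h2 : KK y i ^ 16 ≤ r := by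
    rcases hi : i with _ | i'
    · simpa [KK] using hrr
    · have a1 := not_le.mp (hmin i' (by omega))
      have a2 : (2 : ℝ) ^ (2 ^ i' * L) ≤ (r : ℝ) ^ 3 := by
        have b1 := pow_le_pow_left₀ hw0 a1.le 4
        have b2 : ((4 / 5 : ℝ) ^ (2 ^ i' * L)) ^ 4 * 2 ^ (2 ^ i' * L) ≤ 1 := by
          rw [← pow_mul, mul_comm (2 ^ i' * L), pow_mul, ← mul_pow]
          exact pow_le_one₀ (by norm_num) (by norm_num)
        have b3 : ww r ^ 4 * 2 ^ (2 ^ i' * L) ≤ ww r ^ 4 * (r : ℝ) ^ 3 := by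
          rw [hw]; exact le_trans (mul_le_mul_of_nonneg_right b1 (by positivity)) b2
        have b4 : 0 < ww r ^ 4 := by
          by_contra hh
          have : ww r ^ 4 = 0 := le_antisymm (not_lt.mp hh) (by positivity)
          rw [this] at hw; simp at hw
        exact le_of_mul_le_mul_left b3 b4
      have a3 : KK y (i' + 1) ≤ ((y : ℝ) ^ 6) ^ (2 ^ (i' + 1)) := by
        have b1 := KK_eq y (i' + 1)
        have b2 : (4 : ℝ) ^ (i' + 1) ≤ (y : ℝ) ^ 2 := by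
          have c1 : 2 ^ (i' + 1) ≤ y :=
            le_trans (Nat.pow_le_pow_right (by norm_num) (by omega)) H.hI
          have c2 : (2 : ℝ) ^ (i' + 1) ≤ y := by exact_mod_cast c1
          calc (4 : ℝ) ^ (i' + 1) = (2 ^ (i' + 1)) ^ 2 := by
                rw [← pow_mul, mul_comm, pow_mul]; norm_num
            _ ≤ _ := pow_le_pow_left₀ (by positivity) c2 2
        have b3 : (1 : ℝ) ≤ (y : ℝ) ^ 4 := one_le_pow₀ (by linarith)
        have b4 := one_le_KK hy1 (i' + 1)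
        calc KK y (i' + 1) ≤ KK y (i' + 1) * (y : ℝ) ^ 4 := by nlinarith
          _ = _ := b1
          _ ≤ _ := by
            apply pow_le_pow_left₀ (by positivity)
            calc (y : ℝ) ^ 4 * 4 ^ (i' + 1) ≤ (y : ℝ) ^ 4 * (y : ℝ) ^ 2 := by gcongr
              _ = _ := by ring
      have a4 : ((y : ℝ) ^ 576) ≤ 2 ^ L := by exact_mod_cast H.hL
      refine le_of_pow_le_pow_left₀ (n := 3) (by norm_num) (by positivity) (le_trans ?_ a2)
      have b4 := one_le_KK hy1 (i' + 1)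
      calc (KK y (i' + 1) ^ 16) ^ 3 ≤ ((((y : ℝ) ^ 6) ^ (2 ^ (i' + 1))) ^ 16) ^ 3 := by gcongr
        _ = ((y : ℝ) ^ 576) ^ (2 ^ i') := by
            simp only [← pow_mul]; congr 1; rw [pow_succ]; omega
        _ ≤ (2 ^ L) ^ (2 ^ i') := by gcongr
        _ = _ := by rw [← pow_mul, mul_comm]
  have h3 : (y : ℝ) ^ 40 ≤ r := by
    have a1 := ((hR.dvd (Nat.dvd_of_mem_divisors hr)).lt hr0.ne' hr1).le
    have a2 : y ^ 40 ≤ y ^ 1350 := Nat.pow_le_pow_right hy1 (by norm_num)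
    exact_mod_cast a2.trans a1
  have h4 : KK y i ^ 2 * (r : ℝ) ^ 2 * ww r ^ 3 * (4 * (y : ℝ) ^ 3) ≤ 1 := by
    refine le_of_pow_le_pow_left₀ (n := 8) (by norm_num) (by norm_num) ?_
    rw [one_pow]
    have a1 : (4 * (y : ℝ) ^ 3) ^ 8 ≤ r := by
      refine le_trans ?_ h3
      calc (4 * (y : ℝ) ^ 3) ^ 8 ≤ ((y : ℝ) ^ 2 * (y : ℝ) ^ 3) ^ 8 := by
            gcongr; nlinarith
        _ = _ := by ring
    calc _ = KK y i ^ 16 * (4 * (y : ℝ) ^ 3) ^ 8 * ((r : ℝ) ^ 16 * ww r ^ 24) := by ring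
      _ ≤ r * r * ((r : ℝ) ^ 16 * ww r ^ 24) := by gcongr
      _ = (ww r ^ 4 * (r : ℝ) ^ 3) ^ 6 := by ring
      _ = 1 := by rw [hw, one_pow]
  rw [le_div_iff₀ (by positivity)]
  have h5 : ww r * (r * ee l I r) ^ 2 ≤ ww r * (r * (2 * KK y i * ww r)) ^ 2 := by
    have := ee_nonneg l I r
    gcongr
  calc _ ≤ ww r * (r * (2 * KK y i * ww r)) ^ 2 * (y : ℝ) ^ 3 := by gcongr
    _ = KK y i ^ 2 * (r : ℝ) ^ 2 * ww r ^ 3 * (4 * (y : ℝ) ^ 3) := by ring
    _ ≤ 1 := h4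

lemma inv_all (H : Hy y I L X) (hx : Md y X x) [NeZero x] : ∀ l : List ℕ, (∀ n ∈ l, n ∈ PP y) →
    l.prod.Coprime x ∧ Inv1 y I x l (gc y I x l) ∧
      Ph l I x ≤ (4 / 5) ^ (2 ^ (I + 1) * (gc y I x l - L)) * x + 1 / 2
  | [], _ => by
    have hy1 : 1 ≤ y := by have := H.h8; omega
    refine ⟨by simp, fun q _ i _ => le_trans (ee_le_one _ _ _) ?_, ?_⟩
    · have a := one_le_KK hy1 i
      have b : 1 ≤ mm i (gc y I x []) q := by
        simp only [mm, gc, mul_zero, pow_zero]; linarith [ww_nonneg q]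
      exact one_le_mul_of_one_le_of_one_le a b
    · have : Ph [] I x ≤ x := by
        unfold Ph
        refine le_trans (Finset.sum_le_card_nsmul _ _ 1 fun h _ =>
          pow_le_one₀ (AA_nonneg _ _ _) (AA_le_one _ _ _)) ?_
        rw [nsmul_eq_mul, mul_one]
        have := Finset.card_le_univ (Finset.univ.erase (0 : ZMod x))
        rw [ZMod.card] at this
        exact_mod_cast this
      simp only [gc, zero_tsub, mul_zero, pow_zero, one_mul]; linarith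
  | n :: l, hl => by
    have hy1 : 1 ≤ y := by have := H.h8; omega
    have hy : (8 : ℝ) ≤ y := by exact_mod_cast H.h8
    obtain ⟨h1, h2, h3⟩ := inv_all H hx l fun m hm => hl m (List.mem_cons_of_mem _ hm)
    have hn : n.Coprime x := hx.2.2.1.coprime hy1 (hl n List.mem_cons_self)
    refine ⟨by rw [List.prod_cons]; exact Nat.Coprime.mul_left hn h1, ?_⟩
    by_cases hG : Good y I x l n
    · have e : gc y I x (n :: l) = gc y I x l + 1 := by simp [gc, hG]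
      rw [e]
      refine ⟨inv1_good H hx l h1 hn _ h2 hG, ?_⟩
      by_cases hL : L ≤ gc y I x l
      · have a1 := step_Ph hn l I _ (by positivity)
          (hG x (Nat.mem_divisors_self x hx.1) inferInstance).2
        obtain ⟨c1, c2⟩ := coef' H (le_refl I)
        have a2 := Finset.sum_le_card_nsmul _ _ _ (small H hx l _ hL h2)
        have a3 : ((x.divisors.erase 1).card : ℝ) ≤ (y : ℝ) ^ 3 := by
          exact_mod_cast (Finset.card_erase_le).trans hx.2.2.2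
        have a4 : ∑ r ∈ x.divisors.erase 1, ww r * (r * ee l I r) ^ 2 ≤ 1 := by
          refine a2.trans ?_
          rw [nsmul_eq_mul, mul_one_div, div_le_one (by positivity)]; exact a3
        have e2 : 2 ^ (I + 1) * (gc y I x l + 1 - L)
            = 2 ^ (I + 1) + 2 ^ (I + 1) * (gc y I x l - L) := by
          rw [show gc y I x l + 1 - L = 1 + (gc y I x l - L) by omega]; ring
        rw [e2, pow_add]
        set ρ : ℝ := (4 / 5) ^ (2 ^ (I + 1))
        have ρ0 : 0 ≤ ρ := by positivity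
        have ρ1 : ρ ≤ 1 := pow_le_one₀ (by norm_num) (by norm_num)
        have hP0 : 0 ≤ Ph l I x := Finset.sum_nonneg fun _ _ => pow_nonneg (AA_nonneg _ _ _) _
        have a5 := mul_le_mul c1 h3 hP0 (by positivity)
        have a6 := mul_le_mul c2 a4
          (Finset.sum_nonneg fun r _ => mul_nonneg (ww_nonneg r) (sq_nonneg _)) (by positivity)
        have a7 : 0 ≤ ρ * ((4 / 5) ^ (2 ^ (I + 1) * (gc y I x l - L)) * (x : ℝ)) := by positivity
        nlinarith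
      · rw [show gc y I x l + 1 - L = gc y I x l - L by omega]
        exact (Ph_mono hn l I).trans h3
    · have e : gc y I x (n :: l) = gc y I x l := by simp [gc, hG]
      rw [e]
      refine ⟨fun q hq i hi => ?_, (Ph_mono hn l I).trans h3⟩
      haveI : NeZero q := ⟨(Nat.pos_of_mem_divisors hq).ne'⟩
      exact (ee_mono (hn.coprime_dvd_right (Nat.dvd_of_mem_divisors hq)) l i).trans (h2 q hq i hi)

lemma univ_list (H : Hy y I L X) (w : ℕ) : ∃ l : List ℕ, l.length = w ∧ (∀ n ∈ l, n ∈ PP y) ∧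
    ∑ x ∈ range (X + 1), ind (Md y X x) * (y : ℝ) ^ bc y I x l ≤ (X + 1) * 2 ^ w := by
  have hy : (8 : ℝ) ≤ y := by exact_mod_cast H.h8
  induction w with
  | zero =>
    refine ⟨[], rfl, by simp, ?_⟩
    simp only [bc, pow_zero, mul_one]
    simpa using Finset.sum_le_card_nsmul (range (X + 1)) _ 1 fun x _ => ind_le_one (Md y X x)
  | succ w ih =>
    obtain ⟨l, h1, h2, h3⟩ := ih
    haveI : Nonempty (PP y) := by
      have : 0 < (PP y).card := lt_of_lt_of_le (Nat.pow_pos (by have := H.h8; omega)) H.hP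
      obtain ⟨n, hn⟩ := Finset.card_pos.mp this
      exact ⟨⟨n, hn⟩⟩
    obtain ⟨n, hn⟩ := exists_le_avg (fun n : PP y =>
      ∑ x ∈ range (X + 1), ind (Md y X x) * (y : ℝ) ^ bc y I x (n :: l))
    refine ⟨n :: l, by simp [h1], ?_, hn.trans ?_⟩
    · intro m hm
      rcases List.mem_cons.mp hm with rfl | hm
      · exact n.2
      · exact h2 m hm
    · rw [avg_sum]
      have : ∀ x ∈ range (X + 1), avg (fun n : PP y =>
          ind (Md y X x) * (y : ℝ) ^ bc y I x (n :: l))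
          ≤ 2 * (ind (Md y X x) * (y : ℝ) ^ bc y I x l) := by
        intro x _
        by_cases hx : Md y X x
        · rw [ind_pos hx]
          simp only [one_mul]
          have a1 : ∀ n : PP y, (y : ℝ) ^ bc y I x (n :: l)
              ≤ (1 + ind (¬ Good y I x l n) * y) * (y : ℝ) ^ bc y I x l := by
            intro n
            by_cases hG : Good y I x l n
            · simp [bc, hG, ind_neg]
            · rw [ind_pos hG]
              simp only [bc, hG, if_false, pow_succ]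
              have : (0 : ℝ) ≤ (y : ℝ) ^ bc y I x l := by positivity
              nlinarith
          refine le_trans (avg_mono a1) ?_
          rw [avg_mul_const, avg_add, avg_const, avg_mul_const]
          refine mul_le_mul_of_nonneg_right ?_ (by positivity)
          have a2 := mul_le_mul_of_nonneg_right (bad_prob H hx l) (show (0 : ℝ) ≤ y by linarith)
          have a3 : 1 / (y : ℝ) ^ 2 * y ≤ 1 := by
            rw [one_div, inv_mul_le_iff₀ (by positivity)]; nlinarith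
          linarith
        · rw [ind_neg hx]; simp [avg]
      refine le_trans (Finset.sum_le_sum this) ?_
      rw [← Finset.mul_sum, pow_succ]; linarith

theorem core (H : Hy y I L X) (w : ℕ) (hw : (X + 1) * 2 ^ w ≤ y ^ (w - 2 * L)) (hwL : 2 * L ≤ w) :
    ∃ l : List ℕ, l.length = w ∧ (∀ n ∈ l, n ∈ PP y) ∧ ∀ x, Md y X x → ∀ c : ℕ,
      ∃ d : Fin (2 * 2 ^ (I + 1)) → ℕ, (∀ i, d i ∣ l.prod) ∧ ∑ i, d i ≡ c [MOD x] := by
  obtain ⟨l, h1, h2, h3⟩ := univ_list H w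
  refine ⟨l, h1, h2, fun x hx c => ?_⟩
  haveI : NeZero x := ⟨hx.1⟩
  have hy : (8 : ℝ) ≤ y := by exact_mod_cast H.h8
  have a1 : (y : ℝ) ^ bc y I x l ≤ (y : ℝ) ^ (w - 2 * L) := by
    have b1 := Finset.single_le_sum (f := fun x => ind (Md y X x) * (y : ℝ) ^ bc y I x l)
      (fun x _ => mul_nonneg (ind_nonneg _) (by positivity))
      (Finset.mem_range.mpr (Nat.lt_succ_of_le hx.2.1))
    rw [ind_pos hx, one_mul] at b1
    have b2 : ((X : ℝ) + 1) * 2 ^ w ≤ (y : ℝ) ^ (w - 2 * L) := by exact_mod_cast hw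
    exact b1.trans (h3.trans b2)
  have a2 : bc y I x l ≤ w - 2 * L := (pow_le_pow_iff_right₀ (by linarith)).mp a1
  have a3 := gc_add_bc y I x l
  obtain ⟨-, -, a4⟩ := inv_all H hx l h2
  have a5 : Ph l I x < 1 := by
    have b1 : (4 / 5 : ℝ) ^ (2 ^ (I + 1) * (gc y I x l - L)) ≤ ((4 / 5) ^ (2 ^ I * L)) ^ 2 := by
      rw [← pow_mul]
      refine pow_le_pow_of_le_one (by norm_num) (by norm_num) ?_
      have : L ≤ gc y I x l - L := by omega
      calc 2 ^ I * L * 2 = 2 ^ (I + 1) * L := by ring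
        _ ≤ _ := Nat.mul_le_mul_left _ this
    have b2 := H.hX2
    have b3 : (3 : ℝ) ≤ X := by exact_mod_cast H.hX3
    have b4 : (x : ℝ) ≤ X := by exact_mod_cast hx.2.1
    set u : ℝ := (4 / 5) ^ (2 ^ I * L)
    have u0 : 0 ≤ u := by positivity
    have b5 : u ≤ 1 / 3 := by nlinarith
    have b6 : u ^ 2 * x ≤ 1 / 3 := by
      calc u ^ 2 * x ≤ u ^ 2 * X := by gcongr
        _ = u * (u * X) := by ring
        _ ≤ 1 / 3 * 1 := mul_le_mul b5 b2 (by positivity) (by norm_num)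
        _ = _ := by ring
    have b7 := mul_le_mul_of_nonneg_right b1 (Nat.cast_nonneg (α := ℝ) x)
    linarith
  obtain ⟨t, ht⟩ := cover_of_Ph l I x a5 (c : ZMod x)
  exact ⟨fun i => dd l (t i), fun i => dd_dvd l _, (ZMod.natCast_eq_natCast_iff _ _ _).mp ht⟩

end Vale.Agent.P012
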