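import Vale.Agent.P077.Avg

namespace Vale.Agent.P012

open Finset Vale.Agent.P077

lemma avg_equiv {α β : Type} [Fintype α] [Fintype β] (e : α ≃ β) (f : β → ℝ) :
    avg (fun a => f (e a)) = avg f := by
  unfold avg
  rw [Equiv.sum_comp e f, Fintype.card_congr e]

lemma avg_comm {α β : Type} [Fintype α] [Fintype β] (f : α → β → ℝ) :
    avg (fun a => avg (fun b => f a b)) = avg (fun b => avg (fun a => f a b)) := by
  unfold avg
  simp only [← Finset.sum_div]
  rw [Finset.sum_comm, div_div, div_div, mul_comm]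

lemma sum_avg {α ι : Type} [Fintype α] [Fintype ι] (f : ι → α → ℝ) :
    ∑ j, avg (f j) = avg (fun a => ∑ j, f j a) := (avg_sum _ _).symm

lemma avg_const_mul {α : Type} [Fintype α] (c : ℝ) (f : α → ℝ) :
    avg (fun a => c * f a) = c * avg f := by
  simp only [mul_comm c]; exact avg_mul_const f c

section
variable {G β ι : Type} [CommGroup G] [MulAction G β] [Fintype β] [Fintype ι]

noncomputable def TT (u : ι → G) (φ : β → ℝ) : β → ℝ := fun B => avg fun n => φ (u n • B)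

def ip (φ η : β → ℝ) : ℝ := ∑ B, φ B * η B

lemma ip_comm (φ η : β → ℝ) : ip φ η = ip η φ := by simp only [ip, mul_comm]

lemma ip_self_nonneg (φ : β → ℝ) : 0 ≤ ip φ φ := Finset.sum_nonneg fun _ _ => mul_self_nonneg _

lemma ip_sq_le (φ η : β → ℝ) : ip φ η ^ 2 ≤ ip φ φ * ip η η := by
  have := Finset.sum_mul_sq_le_sq_mul_sq Finset.univ φ η
  simpa only [ip, sq] using this

lemma ip_TT (u : ι → G) (φ η : β → ℝ) : ip (TT u φ) η = ip φ (TT (fun n => (u n)⁻¹) η) := by
  unfold ip TT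
  simp only [← avg_mul_const, ← avg_const_mul]
  rw [sum_avg, sum_avg]
  refine avg_congr fun n => ?_
  rw [← Equiv.sum_comp (MulAction.toPerm (u n)⁻¹)]
  simp

omit [Fintype β] in
lemma TT_comm (u v : ι → G) (φ : β → ℝ) : TT u (TT v φ) = TT v (TT u φ) := by
  funext B
  unfold TT
  rw [avg_comm]
  simp only [smul_smul, mul_comm]

lemma TT_normal (u : ι → G) (η : β → ℝ) :
    ip (TT (fun n => (u n)⁻¹) η) (TT (fun n => (u n)⁻¹) η) = ip (TT u η) (TT u η) := by
  rw [ip_TT, ip_TT u]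
  simp only [inv_inv]
  rw [TT_comm]

lemma TT_logconvex (u : ι → G) (ψ : β → ℝ) :
    ip (TT u ψ) (TT u ψ) ^ 2 ≤ ip ψ ψ * ip (TT u (TT u ψ)) (TT u (TT u ψ)) := by
  rw [ip_TT u ψ, ← TT_normal u (TT u ψ)]
  exact ip_sq_le _ _

lemma logconvex_pow (m : ℕ → ℝ) (h0 : ∀ i, 0 ≤ m i) (h : ∀ i, m (i + 1) ^ 2 ≤ m i * m (i + 2))
    (j : ℕ) : m 1 ^ (j + 1) ≤ m 0 ^ j * m (j + 1) := by
  have key : ∀ i, m 1 * m i ≤ m 0 * m (i + 1) := by
    intro i
    induction i with
    | zero => rw [mul_comm]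
    | succ i ih =>
      rcases (h0 i).eq_or_lt with hz | hp
      · have := h i
        rw [← hz, zero_mul] at this
        have h1 : m (i + 1) = 0 := by nlinarith [sq_nonneg (m (i + 1))]
        rw [h1, mul_zero]; exact mul_nonneg (h0 _) (h0 _)
      · have a1 := mul_le_mul_of_nonneg_right ih (h0 (i + 1))
        have a2 := mul_le_mul_of_nonneg_left (h i) (h0 0)
        have : m i * (m 1 * m (i + 1)) ≤ m i * (m 0 * m (i + 1 + 1)) := by nlinarith
        exact le_of_mul_le_mul_left this hp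
  induction j with
  | zero => simp
  | succ j ih =>
    calc m 1 ^ (j + 1 + 1) = m 1 ^ (j + 1) * m 1 := pow_succ _ _
      _ ≤ m 0 ^ j * m (j + 1) * m 1 := mul_le_mul_of_nonneg_right ih (h0 1)
      _ = m 0 ^ j * (m 1 * m (j + 1)) := by ring
      _ ≤ m 0 ^ j * (m 0 * m (j + 1 + 1)) :=
          mul_le_mul_of_nonneg_left (key _) (pow_nonneg (h0 0) _)
      _ = _ := by ring

omit [Fintype β] in
lemma TT_iter (u : ι → G) (φ : β → ℝ) (j : ℕ) (B : β) :
    (TT u)^[j] φ B = avg fun t : Fin j → ι => φ ((∏ i, u (t i)) • B) := by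
  induction j generalizing B with
  | zero => simp [avg]
  | succ j ih =>
    rw [Function.iterate_succ_apply']
    show avg (fun n => (TT u)^[j] φ (u n • B)) = _
    rw [← avg_equiv (Fin.consEquiv fun _ : Fin (j + 1) => ι), avg_prod]
    refine avg_congr fun n => ?_
    rw [ih]
    refine avg_congr fun t => ?_
    simp [Fin.consEquiv, Fin.prod_univ_succ, smul_smul, mul_comm]

lemma sum_TT [Nonempty ι] (u : ι → G) (φ : β → ℝ) : ∑ B, TT u φ B = ∑ B, φ B := by
  unfold TT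
  rw [sum_avg, ← avg_const (α := ι) (∑ B, φ B)]
  refine avg_congr fun n => ?_
  exact Equiv.sum_comp (MulAction.toPerm (u n)) φ

lemma sum_TT_iter [Nonempty ι] (u : ι → G) (φ : β → ℝ) (j : ℕ) :
    ∑ B, (TT u)^[j] φ B = ∑ B, φ B := by
  induction j with
  | zero => rfl
  | succ j ih => rw [Function.iterate_succ_apply', sum_TT, ih]

/-- Expansion estimate. -/
lemma expand [Nonempty ι] (u : ι → G) (φ : β → ℝ) (hφ : ∀ B, 0 ≤ φ B) (j : ℕ) (R w : ℝ)
    (hR : 0 ≤ R) (hw : 0 ≤ w)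
    (hπ : ∀ B c, φ c ≠ 0 → avg (fun t : Fin (j + 1) → ι => ind ((∏ i, u (t i)) • B = c))
      ≤ R ^ (2 * (j + 1)) * w) :
    avg (fun n => ∑ B, φ B * φ (u n • B)) ≤ R * (∑ B, φ B ^ 2 + w * (∑ B, φ B) ^ 2) := by
  classical
  set V := ∑ B, φ B ^ 2 + w * (∑ B, φ B) ^ 2 with hV
  have hm0 : ip φ φ = ∑ B, φ B ^ 2 := by simp only [ip, sq]
  have hS : 0 ≤ ∑ B, φ B := Finset.sum_nonneg fun B _ => hφ B
  have hm0V : ip φ φ ≤ V := by rw [hm0, hV]; have : 0 ≤ w * (∑ B, φ B) ^ 2 := by positivity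
                               linarith
  have hwV : w * (∑ B, φ B) ^ 2 ≤ V := by rw [hV, ← hm0]; linarith [ip_self_nonneg φ]
  have hV0 : 0 ≤ V := le_trans (ip_self_nonneg φ) hm0V
  have hsup : ∀ B, (TT u)^[j + 1] φ B ≤ R ^ (2 * (j + 1)) * w * ∑ c, φ c := by
    intro B
    rw [TT_iter]
    have : ∀ t : Fin (j + 1) → ι, φ ((∏ i, u (t i)) • B)
        = ∑ c, φ c * ind ((∏ i, u (t i)) • B = c) := by
      intro t
      rw [Finset.sum_eq_single ((∏ i, u (t i)) • B)]
      · rw [ind_pos rfl, mul_one]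
      · intro c _ hc; rw [ind_neg (Ne.symm hc), mul_zero]
      · simp
    rw [avg_congr this, avg_sum, Finset.mul_sum]
    refine Finset.sum_le_sum fun c _ => ?_
    rw [avg_const_mul, mul_comm]
    by_cases hc : φ c = 0
    · rw [hc, mul_zero, mul_zero]
    · exact mul_le_mul_of_nonneg_right (hπ B c hc) (hφ c)
  have hnn : ∀ B, 0 ≤ (TT u)^[j + 1] φ B := by
    intro B; rw [TT_iter]; exact avg_nonneg fun t => hφ _
  have hmj : ip ((TT u)^[j + 1] φ) ((TT u)^[j + 1] φ) ≤ R ^ (2 * (j + 1)) * V := by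
    calc _ ≤ ∑ B, (R ^ (2 * (j + 1)) * w * ∑ c, φ c) * (TT u)^[j + 1] φ B :=
          Finset.sum_le_sum fun B _ => mul_le_mul_of_nonneg_right (hsup B) (hnn B)
      _ = R ^ (2 * (j + 1)) * (w * (∑ c, φ c) ^ 2) := by
          rw [← Finset.mul_sum, sum_TT_iter]; ring
      _ ≤ _ := mul_le_mul_of_nonneg_left hwV (by positivity)
  have hlc := logconvex_pow (fun i => ip ((TT u)^[i] φ) ((TT u)^[i] φ))
    (fun i => ip_self_nonneg _) (fun i => by
      simp only [Function.iterate_succ_apply']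
      exact TT_logconvex u _) j
  simp only [Function.iterate_one, Function.iterate_zero, id] at hlc
  have hm1 : ip (TT u φ) (TT u φ) ≤ R ^ 2 * V := by
    refine le_of_pow_le_pow_left₀ (n := j + 1) (by omega) (by positivity) ?_
    calc _ ≤ ip φ φ ^ j * ip ((TT u)^[j + 1] φ) ((TT u)^[j + 1] φ) := hlc
      _ ≤ V ^ j * (R ^ (2 * (j + 1)) * V) :=
          mul_le_mul (pow_le_pow_left₀ (ip_self_nonneg _) hm0V _) hmj (ip_self_nonneg _)
            (by positivity)
      _ = _ := by rw [mul_pow, ← pow_mul]; ring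
  have hL : avg (fun n => ∑ B, φ B * φ (u n • B)) = ip φ (TT u φ) := by
    unfold ip TT
    simp only [← avg_const_mul]
    rw [sum_avg]
  rw [hL]
  refine le_of_sq_le_sq ?_ (by positivity) |>.trans le_rfl
  calc ip φ (TT u φ) ^ 2 ≤ ip φ φ * ip (TT u φ) (TT u φ) := ip_sq_le _ _
    _ ≤ V * (R ^ 2 * V) := mul_le_mul hm0V hm1 (ip_self_nonneg _) hV0
    _ = _ := by ring

end

end Vale.Agent.P012
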