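import Vale.Agent.P012.Expand

namespace Vale.Agent.P012

open Finset Vale.Agent.P077 ZMod
open scoped ComplexConjugate

noncomputable def cavg {α : Type} [Fintype α] (f : α → ℂ) : ℂ := (∑ a, f a) / Fintype.card α

lemma cavg_re {α : Type} [Fintype α] (f : α → ℂ) : (cavg f).re = avg fun a => (f a).re := by
  unfold cavg avg
  rw [Complex.div_natCast_re, Complex.re_sum]

lemma cavg_ofReal {α : Type} [Fintype α] (f : α → ℝ) :
    cavg (fun a => (f a : ℂ)) = (avg f : ℝ) := by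
  unfold cavg avg; push_cast; rfl

lemma cavg_sum {α ι : Type} [Fintype α] (Y : Finset ι) (f : ι → α → ℂ) :
    ∑ j ∈ Y, cavg (f j) = cavg (fun a => ∑ j ∈ Y, f j a) := by
  unfold cavg
  rw [Finset.sum_comm, Finset.sum_div]

lemma cavg_mul_const {α : Type} [Fintype α] (f : α → ℂ) (c : ℂ) :
    cavg (fun a => f a * c) = cavg f * c := by
  simp [cavg, ← Finset.sum_mul]; ring

lemma cavg_pow {α : Type} [Fintype α] (f : α → ℂ) (s : ℕ) :
    cavg (fun t : Fin s → α => ∏ i, f (t i)) = cavg f ^ s := by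
  unfold cavg
  rw [div_pow, Fintype.sum_pow]; simp

lemma cavg_mul {α β : Type} [Fintype α] [Fintype β] (f : α → ℂ) (g : β → ℂ) :
    cavg (fun t : α × β => f t.1 * g t.2) = cavg f * cavg g := by
  unfold cavg
  rw [Fintype.sum_prod_type, div_mul_div_comm, Finset.sum_mul_sum]; simp

lemma cavg_conj {α : Type} [Fintype α] (f : α → ℂ) :
    conj (cavg f) = cavg fun a => conj (f a) := by
  simp [cavg, map_sum]

lemma norm_cavg_le {α : Type} [Fintype α] [Nonempty α] (f : α → ℂ) (h : ∀ a, ‖f a‖ ≤ 1) :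
    ‖cavg f‖ ≤ 1 := by
  unfold cavg
  have hc : (0 : ℝ) < Fintype.card α := by exact_mod_cast Fintype.card_pos
  rw [norm_div, Complex.norm_natCast, div_le_one hc]
  refine le_trans (norm_sum_le _ _) ?_
  simpa using Finset.sum_le_card_nsmul Finset.univ _ 1 fun a _ => h a

section
variable {Ω : Type} [Fintype Ω]

noncomputable def chi (V : Ω → ℤ) (q : ℕ) [NeZero q] (h : ZMod q) : ℂ :=
  cavg fun ω => stdAddChar (h * (V ω : ZMod q))

noncomputable def pr (V : Ω → ℤ) (q : ℕ) (B : ZMod q) : ℝ := avg fun ω => ind ((V ω : ZMod q) = B)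

noncomputable def dv (V : Ω → ℤ) (g : ℕ) : ℝ := avg fun ω => ind ((g : ℤ) ∣ V ω)

def Sm (V : Ω → ℤ) (s : ℕ) : (Fin s → Ω) → ℤ := fun t => ∑ i, V (t i)

def Dif (V : Ω → ℤ) : Ω × Ω → ℤ := fun t => V t.1 - V t.2

lemma pr_nonneg (V : Ω → ℤ) (q : ℕ) (B : ZMod q) : 0 ≤ pr V q B :=
  avg_nonneg fun _ => ind_nonneg _

lemma dv_nonneg (V : Ω → ℤ) (g : ℕ) : 0 ≤ dv V g := avg_nonneg fun _ => ind_nonneg _

lemma dv_le_one [Nonempty Ω] (V : Ω → ℤ) (g : ℕ) : dv V g ≤ 1 :=
  avg_le_const fun _ => ind_le_one _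

lemma pr_zero (V : Ω → ℤ) (q : ℕ) : pr V q 0 = dv V q :=
  avg_congr fun _ => ind_congr (ZMod.intCast_zmod_eq_zero_iff_dvd _ _)

variable (q : ℕ) [NeZero q]

lemma char_sum {ι : Type} (Y : Finset ι) (f : ι → ZMod q) :
    (stdAddChar (∑ i ∈ Y, f i) : ℂ) = ∏ i ∈ Y, stdAddChar (f i) := by
  classical
  induction Y using Finset.induction_on with
  | empty => simp
  | insert a s ha ih => rw [Finset.sum_insert ha, Finset.prod_insert ha, AddChar.map_add_eq_mul, ih]

lemma norm_char (a : ZMod q) : ‖(stdAddChar a : ℂ)‖ = 1 := AddChar.norm_apply _ _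

lemma norm_chi_le [Nonempty Ω] (V : Ω → ℤ) (h : ZMod q) : ‖chi V q h‖ ≤ 1 :=
  norm_cavg_le _ fun _ => (norm_char q _).le

lemma chi_zero [Nonempty Ω] (V : Ω → ℤ) : chi V q 0 = 1 := by
  have : (Fintype.card Ω : ℂ) ≠ 0 := by exact_mod_cast Fintype.card_ne_zero
  simp [chi, cavg, this]

lemma chi_Sm (V : Ω → ℤ) (s : ℕ) (h : ZMod q) : chi (Sm V s) q h = chi V q h ^ s := by
  unfold chi
  rw [← cavg_pow]
  congr 1; funext t
  rw [← char_sum]; simp [Sm, Finset.mul_sum]

lemma chi_Dif (V : Ω → ℤ) (h : ZMod q) : chi (Dif V) q h = ((‖chi V q h‖ ^ 2 : ℝ) : ℂ) := by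
  rw [← Complex.normSq_eq_norm_sq, ← Complex.mul_conj]
  unfold chi
  rw [cavg_conj, ← cavg_mul]
  congr 1; funext t
  rw [← AddChar.map_neg_eq_conj, ← AddChar.map_add_eq_mul]
  congr 1; simp [Dif]; ring

lemma chi_Del (V : Ω → ℤ) (s : ℕ) (h : ZMod q) :
    chi (Sm (Dif V) s) q h = ((‖chi V q h‖ ^ (2 * s) : ℝ) : ℂ) := by
  rw [chi_Sm, chi_Dif, pow_mul]; push_cast; rfl

lemma orth (b : ZMod q) : ∑ h : ZMod q, (stdAddChar (h * b) : ℂ) = (q : ℝ) * (ind (b = 0) : ℝ) := by
  rw [AddChar.sum_mulShift b (isPrimitive_stdAddChar q)]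
  by_cases hb : b = 0
  · simp [hb, ind_pos]
  · simp [hb, ind_neg]

lemma chi_eq (V : Ω → ℤ) (h : ZMod q) :
    chi V q h = ∑ B, (pr V q B : ℂ) * stdAddChar (h * B) := by
  unfold chi pr
  simp only [← cavg_ofReal, ← cavg_mul_const]
  rw [cavg_sum]
  congr 1; funext ω
  rw [Finset.sum_eq_single (V ω : ZMod q)]
  · simp [ind_pos]
  · intro b _ hb; simp [ind_neg (Ne.symm hb)]
  · simp

lemma inversion (V : Ω → ℤ) (c : ZMod q) :
    ∑ h, chi V q h * stdAddChar (h * (-c)) = ((q : ℝ) * pr V q c : ℝ) := by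
  simp only [chi_eq, Finset.sum_mul]
  rw [Finset.sum_comm]
  simp only [mul_assoc, ← AddChar.map_add_eq_mul, ← mul_add, ← Finset.mul_sum, orth]
  rw [Finset.sum_eq_single c]
  · simp [ind_pos]; ring
  · intro b _ hb
    rw [ind_neg (by rw [← sub_eq_add_neg, sub_eq_zero]; exact hb)]; simp
  · simp

lemma sum_chi (V : Ω → ℤ) : ∑ h, chi V q h = ((q : ℝ) * dv V q : ℝ) := by
  have := inversion q V 0
  simpa [pr_zero] using this

lemma parseval (V : Ω → ℤ) (n : ZMod q) :
    ∑ h, chi V q h * conj (chi V q (n * h)) = ((q : ℝ) * ∑ B, pr V q B * pr V q (n * B) : ℝ) := by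
  have h1 : ∀ h, chi V q h * conj (chi V q (n * h))
      = ∑ B, (pr V q B : ℂ) * (chi V q h * stdAddChar (h * (-(n * B)))) := by
    intro h
    rw [chi_eq q V (n * h), map_sum, Finset.mul_sum]
    refine Finset.sum_congr rfl fun B _ => ?_
    rw [map_mul, Complex.conj_ofReal, ← AddChar.map_neg_eq_conj]
    have : -(n * h * B) = h * -(n * B) := by ring
    rw [this]; ring
  simp only [h1]
  rw [Finset.sum_comm]
  simp only [← Finset.mul_sum, inversion]
  push_cast
  rw [Finset.mul_sum]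
  refine Finset.sum_congr rfl fun B _ => by ring

lemma sum_norm_pow (V : Ω → ℤ) (s : ℕ) :
    ∑ h, ‖chi V q h‖ ^ (2 * s) = q * dv (Sm (Dif V) s) q := by
  have := sum_chi q (Sm (Dif V) s)
  simp only [chi_Del] at this
  exact_mod_cast this

lemma parseval_Del (V : Ω → ℤ) (s : ℕ) (n : ZMod q) :
    ∑ h, ‖chi V q h‖ ^ (2 * s) * ‖chi V q (n * h)‖ ^ (2 * s)
      = q * ∑ B, pr (Sm (Dif V) s) q B * pr (Sm (Dif V) s) q (n * B) := by
  have := parseval q (Sm (Dif V) s) n
  simp only [chi_Del, Complex.conj_ofReal] at this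
  exact_mod_cast this

lemma subgroup_sum (r : ℕ) (hr : r ∣ q) (v : ℤ) :
    (∑ h ∈ Finset.univ.filter (fun h : ZMod q => r • h = 0),
      (stdAddChar (h * (v : ZMod q)) : ℂ)).re ≤ r * ind ((r : ℤ) ∣ v) := by
  have hq : q ≠ 0 := NeZero.ne q
  have hr0 : 0 < r := Nat.pos_of_dvd_of_pos hr (Nat.pos_of_ne_zero hq)
  by_cases hv : (r : ℤ) ∣ v
  · rw [ind_pos hv, mul_one]
    refine le_trans (Complex.re_le_norm _) (le_trans (norm_sum_le _ _) ?_)
    simp only [norm_char]
    rw [Finset.sum_const, nsmul_eq_mul, mul_one]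
    have := IsAddCyclic.card_nsmul_eq_zero_le (α := ZMod q) hr0
    exact_mod_cast this
  · rw [ind_neg hv, mul_zero]
    obtain ⟨g, rfl⟩ := hr
    set S := ∑ h ∈ Finset.univ.filter (fun h : ZMod (r * g) => r • h = 0),
      (stdAddChar (h * (v : ZMod (r * g))) : ℂ) with hS
    have hg0 : g ≠ 0 := by rintro rfl; simp at hq
    have h0 : r • ((g : ℕ) : ZMod (r * g)) = 0 := by
      rw [nsmul_eq_mul, ← Nat.cast_mul, ZMod.natCast_self]
    have h1 : (stdAddChar (((g : ℕ) : ZMod (r * g)) * (v : ZMod (r * g))) : ℂ) ≠ 1 := by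
      intro h
      rw [← (stdAddChar (N := r * g)).map_zero_eq_one, injective_stdAddChar.eq_iff] at h
      have : (((g : ℤ) * v : ℤ) : ZMod (r * g)) = 0 := by push_cast; exact h
      rw [ZMod.intCast_zmod_eq_zero_iff_dvd] at this
      apply hv
      push_cast at this
      rw [mul_comm (r : ℤ)] at this
      exact Int.dvd_of_mul_dvd_mul_left (by exact_mod_cast hg0) this
    have h2 : S * stdAddChar (((g : ℕ) : ZMod (r * g)) * (v : ZMod (r * g))) = S := by
      rw [hS, Finset.sum_mul]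
      refine Finset.sum_bijective (fun h => h + ((g : ℕ) : ZMod (r * g)))
        (Equiv.addRight _).bijective (fun h => ?_) (fun h _ => ?_)
      · simp only [Finset.mem_filter, Finset.mem_univ, true_and, nsmul_add, h0, add_zero]
      · rw [← AddChar.map_add_eq_mul, add_mul]
    have : S = 0 := by
      have h3 : S * (stdAddChar (((g : ℕ) : ZMod (r * g)) * (v : ZMod (r * g))) - 1) = 0 := by
        rw [mul_sub, h2]; ring
      rcases mul_eq_zero.mp h3 with h | h
      · exact h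
      · exact absurd (sub_eq_zero.mp h) h1
    rw [this]; simp

lemma class_norm_pow (V : Ω → ℤ) (s r : ℕ) (hr : r ∣ q) :
    ∑ h ∈ Finset.univ.filter (fun h : ZMod q => addOrderOf h = r), ‖chi V q h‖ ^ (2 * s)
      ≤ r * dv (Sm (Dif V) s) r := by
  calc _ ≤ ∑ h ∈ Finset.univ.filter (fun h : ZMod q => r • h = 0), ‖chi V q h‖ ^ (2 * s) := by
        refine Finset.sum_le_sum_of_subset_of_nonneg (fun h hh => ?_) fun _ _ _ => by positivity
        simp only [Finset.mem_filter, Finset.mem_univ, true_and] at hh ⊢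
        rw [← hh]; exact addOrderOf_nsmul_eq_zero h
    _ = (∑ h ∈ Finset.univ.filter (fun h : ZMod q => r • h = 0), chi (Sm (Dif V) s) q h).re := by
        simp only [chi_Del, Complex.re_sum, Complex.ofReal_re]
    _ ≤ _ := by
        unfold chi dv
        rw [cavg_sum, cavg_re, ← avg_const_mul]
        exact avg_mono fun ω => subgroup_sum q r hr _

lemma class_pr (V : Ω → ℤ) (r : ℕ) (hr : r ∣ q) :
    ∑ B ∈ Finset.univ.filter (fun B : ZMod q => addOrderOf B = r), pr V q B ≤ dv V (q / r) := by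
  unfold pr dv
  rw [← avg_sum]
  refine avg_mono fun ω => ?_
  by_cases h : addOrderOf ((V ω : ℤ) : ZMod q) = r
  · rw [Finset.sum_eq_single ((V ω : ℤ) : ZMod q)]
    · rw [ind_pos rfl, ind_pos]
      obtain ⟨g, rfl⟩ := hr
      have hq : r * g ≠ 0 := NeZero.ne _
      have hr0 : 0 < r := Nat.pos_of_ne_zero (left_ne_zero_of_mul hq)
      rw [Nat.mul_div_cancel_left _ hr0]
      have h1 := addOrderOf_nsmul_eq_zero ((V ω : ℤ) : ZMod (r * g))
      rw [h] at h1
      have : (((r : ℤ) * V ω : ℤ) : ZMod (r * g)) = 0 := by push_cast; rw [← h1, nsmul_eq_mul]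
      rw [ZMod.intCast_zmod_eq_zero_iff_dvd] at this
      push_cast at this
      exact Int.dvd_of_mul_dvd_mul_left (by exact_mod_cast hr0.ne') this
    · intro b _ hb; exact ind_neg (Ne.symm hb)
    · intro hh; simp [h] at hh
  · rw [Finset.sum_eq_zero]
    · exact ind_nonneg _
    · intro b hb
      refine ind_neg fun e => h ?_
      rw [e]; exact (Finset.mem_filter.mp hb).2

end

end Vale.Agent.P012
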