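import Mathlib

namespace Vale.Agent.P012

open Finset

noncomputable def Lg (z x : ℕ) : ℝ := ∑ p ∈ Nat.primesLE z, (x.factorization p : ℝ) * Real.log p

lemma Lg_nonneg (z x : ℕ) : 0 ≤ Lg z x :=
  Finset.sum_nonneg fun p _ => mul_nonneg (Nat.cast_nonneg _) (Real.log_natCast_nonneg p)

lemma Lg_mul (z : ℕ) {a b : ℕ} (ha : a ≠ 0) (hb : b ≠ 0) : Lg z (a * b) = Lg z a + Lg z b := by
  unfold Lg
  rw [← Finset.sum_add_distrib, Nat.factorization_mul ha hb]
  refine Finset.sum_congr rfl fun p _ => ?_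
  simp [add_mul]

lemma Lg_prime {z p : ℕ} (hp : p.Prime) (hz : p ≤ z) : Lg z p = Real.log p := by
  unfold Lg
  rw [Finset.sum_eq_single p]
  · simp [hp.factorization_self]
  · intro q _ hq
    simp [hp.factorization, Finsupp.single_apply, Ne.symm hq]
  · intro h; exact absurd (Nat.mem_primesLE.mpr ⟨hz, hp⟩) h

lemma Lg_le_log (z x : ℕ) : Lg z x ≤ Real.log x := by
  rw [Real.log_nat_eq_sum_factorization, Finsupp.sum, Lg]
  rw [← Finset.sum_filter_ne_zero]
  refine Finset.sum_le_sum_of_subset_of_nonneg (fun p hp => ?_)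
    fun p _ _ => mul_nonneg (Nat.cast_nonneg _) (Real.log_natCast_nonneg p)
  have := (Finset.mem_filter.mp hp).2
  rw [Finsupp.mem_support_iff]
  intro h; rw [h] at this; simp at this

lemma split_smooth (z : ℕ) : ∀ x : ℕ, x ≠ 0 → ∃ a r : ℕ, x = a * r ∧
    (∀ p, p.Prime → p ∣ r → z < p) ∧ Real.log a ≤ Lg z x := by
  intro x
  induction x using Nat.strong_induction_on with
  | _ x ih =>
    intro hx
    by_cases h : ∃ p, p.Prime ∧ p ∣ x ∧ p ≤ z
    · obtain ⟨p, hp, ⟨x', rfl⟩, hz⟩ := h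
      have hx' : x' ≠ 0 := right_ne_zero_of_mul hx
      obtain ⟨a, r, h1, h2, h3⟩ := ih x' (by
        have := hp.two_le
        have := Nat.pos_of_ne_zero hx'
        nlinarith) hx'
      have ha : a ≠ 0 := by rintro rfl; simp at h1; exact hx' h1
      refine ⟨p * a, r, by rw [h1]; ring, h2, ?_⟩
      rw [Lg_mul z hp.ne_zero hx', Lg_prime hp hz]
      push_cast
      rw [Real.log_mul (by exact_mod_cast hp.ne_zero) (by exact_mod_cast ha)]
      linarith
    · refine ⟨1, x, by ring, fun p hp hd => ?_, by simpa using Lg_nonneg z x⟩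
      by_contra hlt
      exact h ⟨p, hp, hd, by omega⟩

lemma sum_Lg (z n : ℕ) : ∑ x ∈ range n, Lg z (x + 1) = Lg z n.factorial := by
  induction n with
  | zero => simp [Lg]
  | succ n ih =>
    rw [Finset.sum_range_succ, ih, Nat.factorial_succ,
      Lg_mul z (by omega) (Nat.factorial_ne_zero n), add_comm]

lemma mertens (z : ℕ) : ∑ p ∈ Nat.primesLE z, Real.log p / p ≤ 2 * Real.log z := by
  rcases Nat.eq_zero_or_pos z with rfl | hz
  · simp
  have hzr : (0 : ℝ) < z := by exact_mod_cast hz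
  have h1 : Lg z z.factorial ≤ z * Real.log z := by
    refine (Lg_le_log _ _).trans ?_
    rw [← Real.log_pow]
    refine Real.log_le_log (by exact_mod_cast z.factorial_pos) ?_
    exact_mod_cast Nat.factorial_le_pow z
  have h2 : z * ∑ p ∈ Nat.primesLE z, Real.log p / p ≤ 2 * Lg z z.factorial := by
    unfold Lg
    rw [Finset.mul_sum, Finset.mul_sum]
    refine Finset.sum_le_sum fun p hp => ?_
    obtain ⟨hpz, hp⟩ := Nat.mem_primesLE.mp hp
    have hp0 : (0 : ℝ) < p := by exact_mod_cast hp.pos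
    have a1 : z / p ≤ z.factorial.factorization p := by
      rw [Nat.factorization_factorial hp (b := Nat.log p z + 2) (by omega)]
      have := Finset.single_le_sum (f := fun i => z / p ^ i) (s := Ico 1 (Nat.log p z + 2))
        (fun _ _ => Nat.zero_le _) (Finset.mem_Ico.mpr ⟨le_rfl, by omega⟩ : 1 ∈ _)
      simpa using this
    have a2 : z ≤ 2 * (z / p) * p := by
      have b1 := Nat.lt_mul_div_succ z hp.pos
      have b2 : 1 ≤ z / p := (Nat.le_div_iff_mul_le hp.pos).mpr (by omega)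
      nlinarith
    have a3 : (z : ℝ) ≤ 2 * (z.factorial.factorization p : ℝ) * p := by
      exact_mod_cast a2.trans (Nat.mul_le_mul_right _ (Nat.mul_le_mul_left _ a1))
    have a4 := Real.log_natCast_nonneg p
    rw [← mul_div_assoc, div_le_iff₀ hp0]
    nlinarith
  have : z * ∑ p ∈ Nat.primesLE z, Real.log p / p ≤ z * (2 * Real.log z) := by linarith
  exact le_of_mul_le_mul_left this hzr

lemma sum_Lg_le (z n : ℕ) : ∑ x ∈ range n, Lg z (x + 1) ≤ n * (4 * Real.log z) := by
  rw [sum_Lg]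
  have h := mertens z
  have h1 : Lg z n.factorial ≤ 2 * n * ∑ p ∈ Nat.primesLE z, Real.log p / p := by
    unfold Lg
    rw [Finset.mul_sum]
    refine Finset.sum_le_sum fun p hp => ?_
    obtain ⟨hpz, hp⟩ := Nat.mem_primesLE.mp hp
    have hp0 : (0 : ℝ) < p := by exact_mod_cast hp.pos
    have a1 := Nat.factorization_factorial_le_div_pred hp n
    have a2 : n / (p - 1) * p ≤ 2 * n := by
      have b1 := Nat.div_mul_le_self n (p - 1)
      have b2 := hp.two_le
      calc n / (p - 1) * p ≤ n / (p - 1) * (2 * (p - 1)) := Nat.mul_le_mul_left _ (by omega)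
        _ = 2 * (n / (p - 1) * (p - 1)) := by ring
        _ ≤ _ := by omega
    have a3 : (n.factorial.factorization p : ℝ) * p ≤ 2 * n := by
      exact_mod_cast (Nat.mul_le_mul_right _ a1).trans a2
    have a4 := Real.log_natCast_nonneg p
    rw [← mul_div_assoc, le_div_iff₀ hp0]
    nlinarith
  have : (0 : ℝ) ≤ n := Nat.cast_nonneg _
  nlinarith

lemma sum_tau_le (n : ℕ) :
    ∑ x ∈ range n, ((x + 1).divisors.card : ℝ) ≤ n * (1 + Real.log n) := by
  have h1 : ∑ x ∈ range n, (x + 1).divisors.card = ∑ d ∈ Icc 1 n, n / d := by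
    have a1 : ∀ x ∈ range n, (x + 1).divisors.card = ∑ d ∈ Icc 1 n, if d ∣ x + 1 then 1 else 0 := by
      intro x hx
      rw [← Finset.card_filter]
      congr 1
      ext d
      have := Finset.mem_range.mp hx
      simp only [Nat.mem_divisors, Finset.mem_filter, Finset.mem_Icc]
      constructor
      · rintro ⟨h, -⟩
        exact ⟨⟨Nat.pos_of_dvd_of_pos h (by omega), (Nat.le_of_dvd (by omega) h).trans (by omega)⟩, h⟩
      · rintro ⟨-, h⟩; exact ⟨h, by omega⟩
    rw [Finset.sum_congr rfl a1, Finset.sum_comm]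
    refine Finset.sum_congr rfl fun d _ => ?_
    rw [← Finset.card_filter, Nat.card_multiples]
  have h2 : ∑ x ∈ range n, ((x + 1).divisors.card : ℝ) = ∑ d ∈ Icc 1 n, ((n / d : ℕ) : ℝ) := by
    exact_mod_cast h1
  rw [h2]
  have h3 := harmonic_le_one_add_log n
  rw [harmonic_eq_sum_Icc] at h3
  push_cast at h3
  calc _ ≤ ∑ d ∈ Icc 1 n, (n : ℝ) * (d : ℝ)⁻¹ :=
        Finset.sum_le_sum fun d _ => by rw [← div_eq_mul_inv]; exact Nat.cast_div_le
    _ = n * ∑ d ∈ Icc 1 n, (d : ℝ)⁻¹ := by rw [Finset.mul_sum]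
    _ ≤ _ := mul_le_mul_of_nonneg_left h3 (Nat.cast_nonneg _)

def Nice (z T x : ℕ) : Prop :=
  ∃ a r : ℕ, x = a * r ∧ r ≠ 0 ∧ a ≤ z ^ 32 ∧ (∀ p, p.Prime → p ∣ r → z < p) ∧ r.divisors.card ≤ T

lemma nice_split (z T x : ℕ) (hz : 2 ≤ z) (hx : 2 ≤ x) (hT : 8 * (1 + Real.log x) ≤ T) :
    ∃ x₁ x₂, x = x₁ + x₂ ∧ x₁ ≠ 0 ∧ x₂ ≠ 0 ∧ Nice z T x₁ ∧ Nice z T x₂ := by
  obtain ⟨n, rfl⟩ : ∃ n, x = n + 1 := ⟨x - 1, by omega⟩
  have hn : (1 : ℝ) ≤ n := by exact_mod_cast (by omega : 1 ≤ n)
  have hlz : 0 < Real.log z := Real.log_pos (by exact_mod_cast hz)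
  have hl : Real.log n ≤ Real.log ((n + 1 : ℕ) : ℝ) :=
    Real.log_le_log (by linarith) (by push_cast; linarith)
  have hl0 : 0 ≤ Real.log n := Real.log_nonneg hn
  have hT0 : (0 : ℝ) < T := by linarith
  let f : ℕ → ℝ := fun m => Lg z m / (32 * Real.log z) + (m.divisors.card : ℝ) / T
  have hf : ∑ i ∈ range n, f (i + 1) ≤ n / 4 := by
    simp only [f]
    rw [Finset.sum_add_distrib, ← Finset.sum_div, ← Finset.sum_div]
    have a1 : (∑ i ∈ range n, Lg z (i + 1)) / (32 * Real.log z) ≤ n / 8 := by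
      rw [div_le_iff₀ (by positivity)]; have := sum_Lg_le z n; linarith
    have a2 : (∑ i ∈ range n, ((i + 1).divisors.card : ℝ)) / T ≤ n / 8 := by
      rw [div_le_iff₀ hT0]; have := sum_tau_le n; nlinarith
    linarith
  have hsum : ∑ i ∈ range n, (f (i + 1) + f (n - 1 - i + 1)) ≤ ∑ i ∈ range n, (1 / 2 : ℝ) := by
    rw [Finset.sum_add_distrib, Finset.sum_range_reflect (fun i => f (i + 1)) n]
    simp only [Finset.sum_const, card_range, nsmul_eq_mul]
    linarith
  obtain ⟨i, hi, hle⟩ := Finset.exists_le_of_sum_le (Finset.nonempty_range_iff.mpr (by omega)) hsum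
  have hi' := Finset.mem_range.mp hi
  have hf0 : ∀ m, 0 ≤ f m := fun m => add_nonneg (div_nonneg (Lg_nonneg _ _) (by positivity))
    (by positivity)
  have key : ∀ m, m ≠ 0 → f m ≤ 1 → Nice z T m := by
    intro m hm hfm
    obtain ⟨a, r, h1, h2, h3⟩ := split_smooth z m hm
    have b1 : 0 ≤ Lg z m / (32 * Real.log z) := div_nonneg (Lg_nonneg _ _) (by positivity)
    have b2 : 0 ≤ (m.divisors.card : ℝ) / T := by positivity
    have c1 : Lg z m / (32 * Real.log z) ≤ 1 := by simp only [f] at hfm; linarith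
    have c2 : (m.divisors.card : ℝ) / T ≤ 1 := by simp only [f] at hfm; linarith
    rw [div_le_one (by positivity)] at c1 c2
    have ha : a ≠ 0 := by rintro rfl; simp at h1; exact hm h1
    refine ⟨a, r, h1, by rintro rfl; simp at h1; exact hm h1, ?_, h2, ?_⟩
    · have d1 : Real.log a ≤ Real.log ((z : ℝ) ^ 32) := by rw [Real.log_pow]; push_cast; linarith
      rw [Real.log_le_log_iff (by positivity) (by positivity)] at d1
      exact_mod_cast d1
    · have d1 : m.divisors.card ≤ T := by exact_mod_cast c2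
      exact (Finset.card_le_card (Nat.divisors_subset_of_dvd hm ⟨a, by rw [h1]; ring⟩)).trans d1
  refine ⟨i + 1, n - 1 - i + 1, by omega, by omega, by omega, key _ (by omega) ?_,
    key _ (by omega) ?_⟩
  · linarith [hf0 (n - 1 - i + 1)]
  · linarith [hf0 (i + 1)]

end Vale.Agent.P012
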