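import Mathlib

namespace Vale.Agent.P012

open Finset

def U (x : ℚ) (s : ℕ) : Prop :=
  ∃ S : Multiset ℕ, S.card ≤ s ∧ (∀ n ∈ S, 0 < n) ∧ (S.map fun n : ℕ => (1 : ℚ) / n).sum = x

lemma U_zero (s : ℕ) : U 0 s := ⟨0, by simp, by simp, by simp⟩

lemma U.mono {x : ℚ} {s t : ℕ} (h : U x s) (hst : s ≤ t) : U x t := by
  obtain ⟨S, h1, h2, h3⟩ := h; exact ⟨S, h1.trans hst, h2, h3⟩

lemma U.add {x x' : ℚ} {s t : ℕ} (h : U x s) (h' : U x' t) : U (x + x') (s + t) := by
  obtain ⟨S, h1, h2, h3⟩ := h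
  obtain ⟨T, g1, g2, g3⟩ := h'
  refine ⟨S + T, by rw [Multiset.card_add]; omega, fun n hn => ?_, by
    rw [Multiset.map_add, Multiset.sum_add, h3, g3]⟩
  rcases Multiset.mem_add.mp hn with h | h
  exacts [h2 n h, g2 n h]

lemma U.div {x : ℚ} {s : ℕ} (h : U x s) {N : ℕ} (hN : 0 < N) : U (x / N) s := by
  obtain ⟨S, h1, h2, h3⟩ := h
  refine ⟨S.map (· * N), by simpa using h1, fun n hn => ?_, ?_⟩
  · obtain ⟨m, hm, rfl⟩ := Multiset.mem_map.mp hn
    exact Nat.mul_pos (h2 m hm) hN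
  · rw [← h3, Multiset.map_map, div_eq_mul_inv, ← Multiset.sum_map_mul_right]
    congr 1
    refine Multiset.map_congr rfl fun n _ => ?_
    simp [mul_comm]

lemma U_single {d M : ℕ} (h : d ∣ M) (hM : 0 < M) : U ((d : ℚ) / M) 1 := by
  obtain ⟨e, rfl⟩ := h
  have hd : 0 < d := Nat.pos_of_mul_pos_right hM
  have he : 0 < e := Nat.pos_of_mul_pos_left hM
  refine ⟨{e}, by simp, by simpa using he, ?_⟩
  have : (d : ℚ) ≠ 0 := by positivity
  have : (e : ℚ) ≠ 0 := by positivity
  simp; field_simp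

lemma U_sum {ι : Type} (Y : Finset ι) (f : ι → ℚ) (k : ℕ) (h : ∀ i ∈ Y, U (f i) k) :
    U (∑ i ∈ Y, f i) (Y.card * k) := by
  classical
  induction Y using Finset.induction_on with
  | empty => simpa using U_zero 0
  | insert a s ha ih =>
    rw [Finset.sum_insert ha, Finset.card_insert_of_notMem ha, add_mul, one_mul, add_comm _ k]
    exact (h a (Finset.mem_insert_self _ _)).add (ih fun i hi => h i (Finset.mem_insert_of_mem hi))

def Reps (k : ℕ) (x : ℚ) : Set (Multiset ℕ) :=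
  {S | S.card = k ∧ (∀ n ∈ S, 0 < n) ∧ (S.map fun n : ℕ => (1 : ℚ) / n).sum = x}

lemma reps_finite : ∀ (k : ℕ) (x : ℚ), (Reps k x).Finite
  | 0, x => (Set.finite_singleton 0).subset fun S hS => Multiset.card_eq_zero.mp hS.1
  | k + 1, x => by
    refine (Set.Finite.biUnion (Set.finite_Iic ⌈((k + 1 : ℕ) : ℚ) / x⌉₊)
      (fun n _ => (reps_finite k (x - 1 / n)).image (n ::ₘ ·))).subset ?_
    rintro S ⟨h1, h2, h3⟩
    have hne : S ≠ 0 := by rintro rfl; simp at h1
    obtain ⟨n, hn, hmin⟩ := Multiset.exists_min_image id hne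
    have hn0 : (0 : ℚ) < n := by exact_mod_cast h2 n hn
    have hx : x ≤ ((k + 1 : ℕ) : ℚ) / n := by
      rw [← h3]
      refine le_trans (Multiset.sum_le_card_nsmul _ ((1 : ℚ) / n) fun z hz => ?_) ?_
      · obtain ⟨m, hm, rfl⟩ := Multiset.mem_map.mp hz
        exact one_div_le_one_div_of_le hn0 (by exact_mod_cast hmin m hm)
      · rw [Multiset.card_map, h1, nsmul_eq_mul, mul_one_div]
    have hx0 : 0 < x := by
      rw [← h3]
      refine lt_of_lt_of_le (show (0 : ℚ) < 1 / n by positivity)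
        (Multiset.single_le_sum (fun z hz => ?_) _ (Multiset.mem_map_of_mem _ hn))
      obtain ⟨m, hm, rfl⟩ := Multiset.mem_map.mp hz
      positivity
    refine Set.mem_biUnion (x := n) ?_ ⟨S.erase n, ⟨?_, ?_, ?_⟩, Multiset.cons_erase hn⟩
    · have : (n : ℚ) ≤ ((k + 1 : ℕ) : ℚ) / x := by
        rw [le_div_iff₀ hx0]; rw [le_div_iff₀ hn0] at hx; linarith
      exact_mod_cast this.trans (Nat.le_ceil _)
    · rw [Multiset.card_erase_of_mem hn, h1]; rfl
    · exact fun m hm => h2 m (Multiset.mem_of_mem_erase hm)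
    · rw [← h3]
      conv_rhs => rw [← Multiset.cons_erase hn, Multiset.map_cons, Multiset.sum_cons]
      ring

lemma U.distinct {x : ℚ} {s : ℕ} (h : U x s) (hx : x < 1) :
    ∃ T : Finset ℕ, T.card ≤ s ∧ (∀ n ∈ T, 2 ≤ n) ∧ ∑ n ∈ T, (1 : ℚ) / n = x := by
  classical
  obtain ⟨S₀, h1, h2, h3⟩ := h
  have hex : ∃ k, (Reps k x).Nonempty := ⟨S₀.card, S₀, rfl, h2, h3⟩
  have hk : Nat.find hex ≤ s := (Nat.find_min' hex ⟨S₀, rfl, h2, h3⟩).trans h1
  obtain ⟨S, ⟨g1, g2, g3⟩, hmax⟩ := Set.exists_max_image _ Multiset.sum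
    (reps_finite (Nat.find hex) x) (Nat.find_spec hex)
  have h2le : ∀ n ∈ S, 2 ≤ n := by
    intro n hn
    have a1 : (1 : ℚ) / n ≤ x := by
      rw [← g3]
      refine Multiset.single_le_sum (fun z hz => ?_) _ (Multiset.mem_map_of_mem _ hn)
      obtain ⟨m, hm, rfl⟩ := Multiset.mem_map.mp hz
      positivity
    have a2 := g2 n hn
    by_contra hlt
    have : n = 1 := by omega
    rw [this] at a1; norm_num at a1; linarith
  have hnd : S.Nodup := by
    rw [Multiset.nodup_iff_ne_cons_cons]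
    rintro n T rfl
    have hn := h2le n (by simp)
    simp only [Multiset.card_cons, Multiset.map_cons, Multiset.sum_cons] at g1 g3
    have hT : ∀ m ∈ T, 0 < m := fun m hm => g2 m (by simp [hm])
    rcases Nat.even_or_odd' n with ⟨m, rfl | rfl⟩
    · refine Nat.find_min hex (m := T.card + 1) (by omega) ⟨m ::ₘ T, by simp, ?_, ?_⟩
      · intro a ha
        rcases Multiset.mem_cons.mp ha with rfl | ha
        · omega
        · exact hT a ha
      · rw [← g3, Multiset.map_cons, Multiset.sum_cons]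
        have : (m : ℚ) ≠ 0 := by have : 0 < m := by omega
                                 positivity
        push_cast; field_simp; ring
    · have := hmax ((m + 1) ::ₘ ((2 * m + 1) * (m + 1)) ::ₘ T) ⟨by simpa using g1, ?_, ?_⟩
      · simp only [Multiset.sum_cons] at this
        nlinarith
      · intro a ha
        simp only [Multiset.mem_cons] at ha
        rcases ha with rfl | rfl | ha
        · omega
        · positivity
        · exact hT a ha
      · rw [← g3]
        simp only [Multiset.map_cons, Multiset.sum_cons]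
        push_cast; field_simp; ring
  exact ⟨⟨S, hnd⟩, by show S.card ≤ s; omega, h2le, g3⟩

def ff : ℕ → ℕ
  | 0 => 1
  | s + 1 => ff s * (ff s + 1)

lemma ff_ge (s : ℕ) : 2 ^ 2 ^ s ≤ ff (s + 1) := by
  induction s with
  | zero => simp [ff]
  | succ s ih =>
    rw [ff, pow_succ, pow_mul, sq]; exact Nat.mul_le_mul ih (ih.trans (Nat.le_succ _))

lemma greedy_aux (a b Z : ℕ) (hab : a < b) (hZ : b ≤ Z) (s : ℕ) :
    ∃ t N : ℕ, 0 < N ∧ t ≤ a ∧ U ((a : ℚ) / b - t / N) s ∧ N ≤ Z ^ 2 ∧ (Z ≤ N ∨ t * ff s < N) := by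
  induction s with
  | zero =>
    refine ⟨a, b, by omega, le_rfl, by simpa using U_zero 0, by nlinarith, Or.inr (by simpa [ff])⟩
  | succ s ih =>
    obtain ⟨t, N, h1, h2, h3, h4, h5⟩ := ih
    by_cases hZN : Z ≤ N
    · exact ⟨t, N, h1, h2, h3.mono (by omega), h4, Or.inl hZN⟩
    rcases Nat.eq_zero_or_pos t with rfl | ht
    · exact ⟨0, N, h1, h2, h3.mono (by omega), h4, Or.inr (by simpa)⟩
    have h5' := h5.resolve_left hZN
    set u := (N - 1) / t with hu
    have a1 : t * u ≤ N - 1 := Nat.mul_div_le _ _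
    have a2 : N - 1 < t * (u + 1) := Nat.lt_mul_div_succ _ ht
    have a3 : u ≤ N - 1 := Nat.div_le_self _ _
    have a4 : ff s ≤ u := (Nat.le_div_iff_mul_le ht).mpr (by rw [mul_comm]; omega)
    obtain ⟨t', ht'⟩ : ∃ t', t * (u + 1) = N + t' := ⟨t * (u + 1) - N, by omega⟩
    have a5 : t' < t := by rw [mul_add] at ht'; omega
    refine ⟨t', N * (u + 1), by positivity, by omega, ?_, ?_, Or.inr ?_⟩
    · have b1 := h3.add (U_single (one_dvd (u + 1)) (by omega))
      convert b1 using 1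
      have c1 : (N : ℚ) ≠ 0 := by positivity
      have c2 : (t' : ℚ) = t * (u + 1) - N := by
        have : ((t * (u + 1) : ℕ) : ℚ) = ((N + t' : ℕ) : ℚ) := by rw [ht']
        push_cast at this; linarith
      rw [c2]; push_cast; field_simp; ring
    · have : N * (u + 1) ≤ Z * Z := Nat.mul_le_mul (by omega) (by omega)
      rw [sq]; exact this
    · have b1 : t' * u < N := lt_of_le_of_lt (Nat.mul_le_mul_right _ a5.le) (by omega)
      calc t' * ff (s + 1) ≤ t' * (u * (u + 1)) := by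
            rw [ff]; gcongr
        _ = t' * u * (u + 1) := by ring
        _ < N * (u + 1) := Nat.mul_lt_mul_of_pos_right b1 (by omega)

lemma greedy (a b M s : ℕ) (hab : a < b) (hM : 0 < M) (hs : b * M ≤ 2 ^ 2 ^ s) :
    ∃ t N : ℕ, 0 < N ∧ U ((a : ℚ) / b - t / N) (s + 1) ∧ N ≤ (b * M) ^ 2 ∧ t * M ≤ N := by
  obtain ⟨t, N, h1, h2, h3, h4, h5⟩ := greedy_aux a b (b * M) hab (Nat.le_mul_of_pos_right _ hM)
    (s + 1)
  refine ⟨t, N, h1, h3, h4, ?_⟩
  rcases h5 with h | h
  · exact le_trans (Nat.mul_le_mul_right _ (by omega)) h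
  · have a1 := hs.trans (ff_ge s)
    have a2 : M ≤ b * M := Nat.le_mul_of_pos_left _ (by omega)
    exact le_trans (Nat.mul_le_mul_left _ (a2.trans a1)) h.le

lemma digits_U (y β D : ℕ) (hy : 0 < y) (hD : 0 < D) (hβ : β ∣ D) : ∀ A m : ℕ, m < y ^ A →
    U (((m * β : ℕ) : ℚ) / ((y.factorial * y ^ A * D : ℕ) : ℚ)) A
  | 0, m, hm => by
    have : m = 0 := by simpa using hm
    subst this; simpa using U_zero 0
  | A + 1, m, hm => by
    have h1 := digits_U y β D hy hD hβ A (m / y)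
      (by rw [Nat.div_lt_iff_lt_mul hy, ← pow_succ]; exact hm)
    have hpos : 0 < y.factorial * y ^ (A + 1) * D := by have := y.factorial_pos; positivity
    have h2 : U (((m % y * β : ℕ) : ℚ) / ((y.factorial * y ^ (A + 1) * D : ℕ) : ℚ)) 1 := by
      rcases Nat.eq_zero_or_pos (m % y) with h | h
      · rw [h]; simpa using U_zero 1
      · refine U_single (mul_dvd_mul (Dvd.dvd.mul_right ?_ _) hβ) hpos
        exact Nat.dvd_factorial h (Nat.mod_lt _ hy).le
    convert h1.add h2 using 1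
    have e : (m : ℚ) = y * ((m / y : ℕ) : ℚ) + ((m % y : ℕ) : ℚ) := by
      exact_mod_cast (Nat.div_add_mod m y).symm
    have c1 : (y : ℚ) ≠ 0 := by positivity
    have c2 : (D : ℚ) ≠ 0 := by positivity
    have c3 : (y.factorial : ℚ) ≠ 0 := by have := y.factorial_pos; positivity
    rw [Nat.cast_mul m, e]
    generalize m / y = c
    generalize m % y = d
    push_cast; field_simp; ring

end Vale.Agent.P012
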