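import Vale.Agent.P012.Core
import Vale.Agent.P012.Unit
import Vale.Agent.P012.Nice

namespace Vale.Agent.P012

open Finset

lemma big {κ : ℕ} (h : 20 ≤ κ) : 50000 * κ ≤ 2 ^ κ := by
  induction κ, h using Nat.le_induction with
  | base => norm_num
  | succ n hn ih => rw [pow_succ]; omega

lemma primes_many {κ : ℕ} (h : 20 ≤ κ) : (2 ^ κ) ^ 149 ≤ (PP (2 ^ κ)).card := by
  have hb := big h
  unfold PP
  rw [Nat.primesLE_card_eq_primeCounting]
  have h1 := Chebyshev.pi_ge ((2 ^ κ) ^ 150)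
  have hl2 : 0 < Real.log 2 := Real.log_pos (by norm_num)
  have hk : (20 : ℝ) ≤ κ := by exact_mod_cast h
  have hbr : 50000 * (κ : ℝ) ≤ 2 ^ κ := by exact_mod_cast hb
  have e1 : Real.log (((2 ^ κ) ^ 150 : ℕ) : ℝ) = 150 * κ * Real.log 2 := by
    push_cast; rw [Real.log_pow, Real.log_pow]; push_cast; ring
  have e2 : Real.log ((((2 ^ κ) ^ 150 : ℕ) : ℝ) + 1) ≤ (150 * κ + 1) * Real.log 2 := by
    have a : (1 : ℝ) ≤ (((2 ^ κ) ^ 150 : ℕ) : ℝ) := by
      exact_mod_cast Nat.one_le_pow _ _ (by positivity)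
    calc _ ≤ Real.log (2 * (((2 ^ κ) ^ 150 : ℕ) : ℝ)) := Real.log_le_log (by linarith) (by linarith)
      _ = _ := by rw [Real.log_mul (by norm_num) (by linarith), e1]; ring
  have h2 : (((2 ^ κ) ^ 149 : ℕ) : ℝ) ≤ (Nat.primeCounting ((2 ^ κ) ^ 150) : ℝ) := by
    refine le_trans ?_ h1
    rw [e1, le_div_iff₀ (by positivity)]
    have a : (1 : ℝ) ≤ (((2 ^ κ) ^ 149 : ℕ) : ℝ) := by
      exact_mod_cast Nat.one_le_pow _ _ (by positivity)
    have b : (((2 ^ κ) ^ 150 : ℕ) : ℝ) = (((2 ^ κ) ^ 149 : ℕ) : ℝ) * 2 ^ κ := by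
      push_cast; ring
    rw [b] at e2 ⊢
    set u := (((2 ^ κ) ^ 149 : ℕ) : ℝ)
    have c : u * (150 * κ) + (150 * κ + 1) ≤ u * 2 ^ κ := by nlinarith
    nlinarith
  exact_mod_cast h2

lemma pool {κ : ℕ} (h : 20 ≤ κ) (v : ℕ) (hv1 : 2 ^ κ ≤ v) (hv2 : κ * v ≤ (2 ^ κ) ^ 2) :
    ∃ P : ℕ, 0 < P ∧ P ≤ 2 ^ (4800 * κ * v) ∧ ∀ x, Md (2 ^ κ) (2 ^ (κ * v)) x → ∀ c : ℕ,
      ∃ d : Fin (2 * 2 ^ (Nat.log 2 κ + 1)) → ℕ, (∀ i, d i ∣ P) ∧ ∑ i, d i ≡ c [MOD x] := by
  have hb := big h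
  have hI1 : 2 ^ Nat.log 2 κ ≤ κ := Nat.pow_log_le_self 2 (by omega)
  have hI2 : κ < 2 ^ (Nat.log 2 κ + 1) := Nat.lt_pow_succ_log_self (by norm_num) κ
  have hI3 : Nat.log 2 κ < 2 ^ Nat.log 2 κ := Nat.lt_two_pow_self
  have H : Hy (2 ^ κ) (Nat.log 2 κ) (8 * v) (2 ^ (κ * v)) := by
    refine ⟨by omega, primes_many h, Nat.pow_le_pow_right (by norm_num) hv2, ?_, by omega, by omega,
      ?_, ?_, ?_⟩
    · calc 8 * 4 ^ 2 ^ (Nat.log 2 κ + 1) ≤ 2 ^ κ * 4 ^ (2 * κ) :=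
            Nat.mul_le_mul (by omega) (Nat.pow_le_pow_right (by norm_num) (by rw [pow_succ]; omega))
        _ = _ := by
            rw [show 4 = 2 ^ 2 by norm_num, ← pow_mul, ← pow_mul, ← pow_add]; congr 1; ring
    · rw [← pow_mul]; exact Nat.pow_le_pow_right (by norm_num) (by omega)
    · have a1 : (4 / 5 : ℝ) ^ (2 ^ Nat.log 2 κ * (8 * v)) ≤ (1 / 2) ^ (κ * v) := by
        calc (4 / 5 : ℝ) ^ (2 ^ Nat.log 2 κ * (8 * v)) ≤ (4 / 5) ^ (4 * (κ * v)) := by
              refine pow_le_pow_of_le_one (by norm_num) (by norm_num) ?_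
              rw [pow_succ] at hI2; nlinarith
          _ ≤ _ := by rw [pow_mul]; exact pow_le_pow_left₀ (by norm_num) (by norm_num) _
      calc _ ≤ (1 / 2 : ℝ) ^ (κ * v) * ((2 ^ (κ * v) : ℕ) : ℝ) := by gcongr
        _ = 1 := by push_cast; rw [← mul_pow]; norm_num
    · calc 3 ≤ 2 ^ 2 := by norm_num
        _ ≤ _ := Nat.pow_le_pow_right (by norm_num) (by nlinarith)
  obtain ⟨l, h1, h2, h3⟩ := core H (32 * v) (by
    have a : 2 ^ (κ * v) + 1 ≤ 2 ^ (κ * v + 1) := by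
      have := Nat.one_le_two_pow (n := κ * v)
      rw [pow_succ]; omega
    refine le_trans (Nat.mul_le_mul_right _ a) ?_
    rw [← pow_add, ← pow_mul, show 32 * v - 2 * (8 * v) = 16 * v by omega]
    exact Nat.pow_le_pow_right (by norm_num) (by nlinarith)) (by omega)
  refine ⟨l.prod, List.prod_pos fun n hn => (mem_PP.mp (h2 n hn)).2.pos, ?_, h3⟩
  refine le_trans (List.prod_le_pow_card l _ fun n hn => (mem_PP.mp (h2 n hn)).1) ?_
  rw [h1, ← pow_mul, ← pow_mul]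
  exact Nat.pow_le_pow_right (by norm_num) (le_of_eq (by ring))

lemma terminal {κ : ℕ} (h : 20 ≤ κ) (X k P₁ P₂ : ℕ) (hk : 0 < k) (hX : X ≤ 2 ^ ((2 ^ κ) ^ 2))
    (h1 : 0 < P₁) (h2 : 0 < P₂)
    (hP : ∀ x, Md (2 ^ κ) X x → ∀ c : ℕ,
      ∃ d : Fin k → ℕ, (∀ i, d i ∣ P₁) ∧ ∑ i, d i ≡ c [MOD x]) (x : ℕ) (hx : x ≤ X) :
    U ((x : ℚ) / (((2 ^ κ).factorial * (2 ^ κ) ^ 43201 * (P₁ * P₂) : ℕ) : ℚ))
      (2 * (k * 43201)) := by
  have hb := big h
  set y := 2 ^ κ with hy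
  have hy8 : 16 ≤ y := by omega
  have hM : 0 < y.factorial * y ^ 43201 * (P₁ * P₂) := by have := y.factorial_pos; positivity
  have nice : ∀ m, m ≠ 0 → m ≤ X → Nice (y ^ 1350) (y ^ 3) m →
      U ((m : ℚ) / ((y.factorial * y ^ 43201 * (P₁ * P₂) : ℕ) : ℚ)) (k * 43201) := by
    rintro m hm0 hmX ⟨a, r, rfl, g1, g2, g3, g4⟩
    have ha : 0 < a := Nat.pos_of_ne_zero (left_ne_zero_of_mul hm0)
    obtain ⟨d, hd1, hd2⟩ := hP r ⟨g1, (Nat.le_mul_of_pos_left _ ha).trans hmX, g3, g4⟩ 0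
    obtain ⟨n, hn⟩ := (Nat.modEq_zero_iff_dvd).mp hd2
    have hpos : 0 < ∑ i, d i := by
      haveI : Nonempty (Fin k) := ⟨⟨0, hk⟩⟩
      exact Finset.sum_pos (fun i _ => Nat.pos_of_dvd_of_pos (hd1 i) h1) Finset.univ_nonempty
    have hn0 : 0 < n := by rw [hn] at hpos; exact Nat.pos_of_mul_pos_left hpos
    have halt : a < y ^ 43201 := by
      refine lt_of_le_of_lt g2 ?_
      rw [← pow_mul]
      exact Nat.pow_lt_pow_right (by omega) (by norm_num)
    have := U_sum Finset.univ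
      (fun i => ((a * d i : ℕ) : ℚ) / ((y.factorial * y ^ 43201 * (P₁ * P₂ * n) : ℕ) : ℚ)) 43201
      (fun i _ => digits_U y (d i) (P₁ * P₂ * n) (by omega) (by positivity)
        (((hd1 i).mul_right _).mul_right _) 43201 a halt)
    rw [Finset.card_univ, Fintype.card_fin, ← Finset.sum_div, ← Nat.cast_sum, ← Finset.mul_sum,
      hn, ← mul_assoc (y.factorial * y ^ 43201)] at this
    convert this using 1
    generalize y.factorial * y ^ 43201 * (P₁ * P₂) = M at hM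
    have c1 : (M : ℚ) ≠ 0 := by positivity
    have c2 : (n : ℚ) ≠ 0 := by positivity
    push_cast; field_simp
  rcases Nat.lt_or_ge x 2 with hx2 | hx2
  · interval_cases x
    · simpa using U_zero _
    · exact (U_single (one_dvd _) hM).mono (by omega)
  · obtain ⟨x₁, x₂, rfl, a1, a2, a3, a4⟩ := nice_split (y ^ 1350) (y ^ 3) x
      (le_trans (by omega) (Nat.le_self_pow (by norm_num) y)) hx2 (by
        have b1 : Real.log x ≤ (y : ℝ) ^ 2 := by
          have c1 : (x : ℝ) ≤ 2 ^ (y ^ 2) := by exact_mod_cast hx.trans hX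
          have c2 : Real.log 2 ≤ 1 := by have := Real.log_two_lt_d9; linarith
          calc Real.log x ≤ Real.log (2 ^ (y ^ 2)) :=
                Real.log_le_log (by exact_mod_cast (by omega : 0 < x)) c1
            _ = (y : ℝ) ^ 2 * Real.log 2 := by rw [Real.log_pow]; push_cast; ring
            _ ≤ _ := by nlinarith [sq_nonneg (y : ℝ)]
        have b2 : (16 : ℝ) ≤ y := by exact_mod_cast hy8
        push_cast
        nlinarith)
    rw [Nat.cast_add, add_div, two_mul]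
    exact (nice x₁ a1 (by omega) a3).add (nice x₂ a2 (by omega) a4)

lemma qadic (X k T Q M P : ℕ) (hQ : 0 < Q) (hM : 0 < M) (hP : 0 < P) (hPM : P ∣ M) (hX : k * P ≤ X)
    (hd : ∀ c : ℕ, ∃ d : Fin k → ℕ, (∀ i, d i ∣ P) ∧ ∑ i, d i ≡ c [MOD Q])
    (hT : ∀ x ≤ X, U ((x : ℚ) / M) T) :
    ∀ i x : ℕ, x ≤ Q ^ i * X → U ((x : ℚ) / ((Q ^ i * M : ℕ) : ℚ)) (i * k + T)
  | 0, x, hx => by simpa using hT x (by simpa using hx)
  | i + 1, x, hx => by
    have c1 : (M : ℚ) ≠ 0 := by positivity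
    have c2 : (Q : ℚ) ≠ 0 := by positivity
    by_cases hxX : x ≤ X
    · have := ((hT x hxX).div (N := Q ^ (i + 1)) (by positivity)).mono
        (Nat.le_add_left T ((i + 1) * k))
      convert this using 1
      push_cast; field_simp
    · obtain ⟨d, hd1, hd2⟩ := hd x
      have h1 : ∑ j, d j ≤ k * P := by
        have := Finset.sum_le_card_nsmul Finset.univ d P fun j _ => Nat.le_of_dvd hP (hd1 j)
        simpa using this
      obtain ⟨x', hx'⟩ := (Nat.modEq_iff_dvd' (by omega : ∑ j, d j ≤ x)).mp hd2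
      have h2 : x' ≤ Q ^ i * X := by
        refine Nat.le_of_mul_le_mul_left ?_ hQ
        rw [← hx', ← mul_assoc, ← pow_succ']; omega
      have h3 := qadic X k T Q M P hQ hM hP hPM hX hd hT i x' h2
      have h4 := U_sum Finset.univ (fun j => (d j : ℚ) / ((Q ^ (i + 1) * M : ℕ) : ℚ)) 1
        (fun j _ => U_single (((hd1 j).trans hPM).mul_left _) (by positivity))
      rw [Finset.card_univ, Fintype.card_fin, ← Finset.sum_div, ← Nat.cast_sum] at h4
      have h5 := (h4.add h3).mono (show _ ≤ (i + 1) * k + T by rw [add_mul]; omega)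
      convert h5 using 1
      have e : x = ∑ j, d j + Q * x' := by omega
      rw [e]
      generalize ∑ j, d j = S
      push_cast; field_simp; ring

lemma aux1350 {κ W : ℕ} (h : 20 ≤ κ) (a2 : κ * 1351 ≤ W) : κ * 1350 ≤ W - 1 := by
  apply Nat.le_sub_one_of_lt
  nlinarith

theorem main_kappa {κ : ℕ} (h : 20 ≤ κ) (a b : ℕ) (hab : a < b) (hb2 : b ≤ 2 ^ 2 ^ κ) :
    U ((a : ℚ) / b) (10 ^ 9 * κ) := by
  have hb := big h
  have hI1 : 2 ^ Nat.log 2 κ ≤ κ := Nat.pow_log_le_self 2 (by omega)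
  obtain ⟨P₁, p1, p2, p3⟩ := pool h (4801 * 2 ^ κ) (by omega) (by nlinarith)
  obtain ⟨P₂, q1, q2, q3⟩ := pool h (2 ^ κ) le_rfl (by nlinarith)
  set k := 2 * 2 ^ (Nat.log 2 κ + 1) with hk
  have hk0 : 0 < k := by positivity
  have hk4 : k ≤ 4 * κ := by rw [hk, pow_succ]; omega
  have hT := terminal h (2 ^ (κ * (4801 * 2 ^ κ))) k P₁ P₂ hk0
    (Nat.pow_le_pow_right (by norm_num) (by nlinarith)) p1 q1 p3
  set y := 2 ^ κ with hy
  have hyκ : 20 * y ≤ κ * y := Nat.mul_le_mul_right _ h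
  obtain ⟨Q, hQ, hQ1, hQ2⟩ := Nat.exists_prime_lt_and_le_two_mul (2 ^ (κ * y - 1)) (by positivity)
  have hQ2' : Q ≤ 2 ^ (κ * y) := by
    rw [← pow_succ'] at hQ2
    rwa [show κ * y - 1 + 1 = κ * y by omega] at hQ2
  have hQM : Md y (2 ^ (κ * y)) Q := by
    refine ⟨hQ.ne_zero, hQ2', fun p hp hd => ?_, ?_⟩
    · rw [(Nat.prime_dvd_prime_iff_eq hp hQ).mp hd]
      refine lt_of_le_of_lt ?_ hQ1
      rw [hy, ← pow_mul]
      refine Nat.pow_le_pow_right (by norm_num) ?_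
      have a1 : 1351 ≤ y := by omega
      have a2 : κ * 1351 ≤ κ * y := Nat.mul_le_mul_left _ a1
      exact aux1350 h a2
    · rw [hQ.divisors]
      refine (Finset.card_le_two).trans ?_
      have a1 : 2 ≤ y := by omega
      exact a1.trans (Nat.le_self_pow (show 3 ≠ 0 by norm_num) y)
  set M := y.factorial * y ^ 43201 * (P₁ * P₂) with hM
  have hM0 : 0 < M := by have := y.factorial_pos; positivity
  have hrep := qadic (2 ^ (κ * (4801 * y))) k _ Q M P₂ hQ.pos hM0 q1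
    (Dvd.dvd.mul_left (Dvd.intro_left _ rfl) _) (by
      calc k * P₂ ≤ 2 ^ (κ * y) * 2 ^ (4800 * κ * y) := by
            refine Nat.mul_le_mul ?_ q2
            have := Nat.lt_two_pow_self (n := κ * y)
            omega
        _ = _ := by rw [← pow_add]; congr 1; ring) (q3 Q hQM) hT 92198412
  have hbM : b * M ≤ 2 ^ (κ * y * 23049603) := by
    have a1 : y.factorial ≤ 2 ^ (κ * y) := by
      rw [pow_mul]; exact Nat.factorial_le_pow y
    have a2 : y ^ 43201 ≤ 2 ^ (κ * y) := by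
      rw [pow_mul]; exact Nat.pow_le_pow_right (by omega) (by omega)
    have a3 : b ≤ 2 ^ (κ * y) := hb2.trans (Nat.pow_le_pow_right (by norm_num) (by omega))
    calc b * M ≤ 2 ^ (κ * y) * (2 ^ (κ * y) * 2 ^ (κ * y) *
          (2 ^ (4800 * κ * (4801 * y)) * 2 ^ (4800 * κ * y))) := by
          rw [hM]; gcongr
      _ = _ := by simp only [← pow_add]; congr 1; ring
  have hQK : (b * M) ^ 2 ≤ Q ^ 92198412 := by
    have a1 : 2 ^ (κ * y) ≤ Q ^ 2 := by
      refine le_trans ?_ (Nat.pow_le_pow_left hQ1.le 2)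
      rw [← pow_mul]; exact Nat.pow_le_pow_right (by norm_num) (by omega)
    calc (b * M) ^ 2 ≤ (2 ^ (κ * y * 23049603)) ^ 2 := Nat.pow_le_pow_left hbM 2
      _ = (2 ^ (κ * y)) ^ (23049603 * 2) := by
          rw [← pow_mul 2 (κ * y * 23049603), ← pow_mul 2 (κ * y), mul_assoc (κ * y)]
      _ ≤ (Q ^ 2) ^ (23049603 * 2) := Nat.pow_le_pow_left a1 _
      _ = _ := by rw [← pow_mul Q]
  obtain ⟨t, N, g1, g2, g3, g4⟩ := greedy a b M (3 * κ) hab hM0 (hbM.trans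
    (Nat.pow_le_pow_right (by norm_num) (by
      rw [mul_comm 3, pow_mul, ← hy]
      have a1 : κ * 23049603 ≤ y * y := by nlinarith
      calc κ * y * 23049603 = y * (κ * 23049603) := by ring
        _ ≤ y * (y * y) := Nat.mul_le_mul_left _ a1
        _ = _ := by ring)))
  generalize Q ^ 92198412 = R at hrep hQK
  have hR : 0 < R := lt_of_lt_of_le (by have : 0 < b := by omega
                                        positivity) hQK
  have hX1 : 1 ≤ 2 ^ (κ * (4801 * y)) := Nat.one_le_two_pow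
  have r1 := hrep (t * (R * M) / N) (by
    refine le_trans (Nat.div_le_of_le_mul ?_) (Nat.le_mul_of_pos_right R hX1)
    calc t * (R * M) = t * M * R := by ring
      _ ≤ _ := Nat.mul_le_mul_right _ g4)
  have r2 := (hrep (t * (R * M) % N) (le_trans (Nat.mod_lt _ g1).le
    (g3.trans (hQK.trans (Nat.le_mul_of_pos_right R hX1))))).div g1
  have r3 := ((g2.add r1).add r2).mono (show _ ≤ 10 ^ 9 * κ by omega)
  convert r3 using 1
  have e := Nat.div_add_mod (t * (R * M)) N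
  generalize t * (R * M) / N = m at *
  generalize t * (R * M) % N = r at *
  have e' : (N : ℚ) * m + r = t * ((R * M : ℕ) : ℚ) := by exact_mod_cast e
  have c1 : ((R * M : ℕ) : ℚ) ≠ 0 := by positivity
  have c2 : (N : ℚ) ≠ 0 := by positivity
  generalize ((R * M : ℕ) : ℚ) = W at *
  have : (t : ℚ) / N = m / W + r / W / N := by field_simp; linarith
  rw [this]; ring

theorem main : ∃ C : ℝ, ∃ b₀ : ℕ, ∀ b : ℕ, b₀ ≤ b → ∀ a : ℕ, 1 ≤ a → a < b →
    ∃ S : Finset ℕ, (∀ n ∈ S, 2 ≤ n) ∧ ∑ n ∈ S, (1 : ℚ) / n = (a : ℚ) / b ∧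
      (S.card : ℝ) ≤ C * Real.log (Real.log b) := by
  have ht : Filter.Tendsto (fun b : ℕ => Real.log (Real.log b)) Filter.atTop Filter.atTop :=
    Real.tendsto_log_atTop.comp (Real.tendsto_log_atTop.comp tendsto_natCast_atTop_atTop)
  obtain ⟨b₀, hb₀⟩ := Filter.eventually_atTop.mp (ht.eventually_ge_atTop 20)
  refine ⟨3 * 10 ^ 9, b₀, fun b hb a ha hab => ?_⟩
  have hu := hb₀ b hb
  set u := Real.log (Real.log b) with hu'
  have hb1 : (1 : ℝ) < b := by exact_mod_cast (by omega : 1 < b)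
  have hlb : 0 < Real.log b := Real.log_pos hb1
  have k1 : 2 * u ≤ (⌈2 * u⌉₊ : ℕ) := Nat.le_ceil _
  have k2 : ((⌈2 * u⌉₊ : ℕ) : ℝ) < 2 * u + 1 := Nat.ceil_lt_add_one (by linarith)
  set κ := ⌈2 * u⌉₊
  have hκ : 20 ≤ κ := by exact_mod_cast (by linarith : (20 : ℝ) ≤ κ)
  have l1 := Real.log_two_gt_d9
  have l2 := Real.log_two_lt_d9
  have hb2 : b ≤ 2 ^ 2 ^ κ := by
    have a1 : 2 * Real.log b ≤ 2 ^ κ := by
      rw [← Real.log_le_log_iff (by positivity) (by positivity), Real.log_mul (by norm_num) hlb.ne',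
        Real.log_pow, ← hu']
      nlinarith
    have a2 : (b : ℝ) ≤ 2 ^ 2 ^ κ := by
      rw [← Real.log_le_log_iff (by positivity) (by positivity), Real.log_pow]
      push_cast
      nlinarith
    exact_mod_cast a2
  obtain ⟨T, h1, h2, h3⟩ := (main_kappa hκ a b hab hb2).distinct (by
    rw [div_lt_one (by exact_mod_cast (by omega : 0 < b))]; exact_mod_cast hab)
  refine ⟨T, h2, h3, ?_⟩
  have : (T.card : ℝ) ≤ 10 ^ 9 * κ := by exact_mod_cast h1
  nlinarith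

end Vale.Agent.P012
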