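import Vale.Agent.P012.Class

namespace Vale.Agent.P012

open Finset Vale.Agent.P077
open scoped ComplexConjugate

def Om : List ℕ → Type
  | [] => Unit
  | _ :: l => Bool × Om l

instance instFinOm : ∀ l, Fintype (Om l)
  | [] => inferInstanceAs (Fintype Unit)
  | _ :: l => letI := instFinOm l; inferInstanceAs (Fintype (Bool × Om l))

instance instNeOm : ∀ l, Nonempty (Om l)
  | [] => inferInstanceAs (Nonempty Unit)
  | _ :: l => letI := instNeOm l; inferInstanceAs (Nonempty (Bool × Om l))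

def dd : ∀ l, Om l → ℕ
  | [], _ => 1
  | n :: l, ω => (if ω.1 = true then n else 1) * dd l ω.2

lemma dd_dvd : ∀ l ω, dd l ω ∣ l.prod
  | [], _ => by simp [dd]
  | n :: l, ω => by
    simp only [dd, List.prod_cons]
    refine mul_dvd_mul ?_ (dd_dvd l ω.2)
    split_ifs <;> simp

def dz (l : List ℕ) : Om l → ℤ := fun ω => dd l ω

lemma cavg_bool {β : Type} [Fintype β] (f : Bool × β → ℂ) :
    cavg f = (cavg (fun b => f (false, b)) + cavg (fun b => f (true, b))) / 2 := by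
  unfold cavg
  rw [Fintype.sum_prod_type, Fintype.card_prod]
  simp
  ring

lemma chi_cons (n : ℕ) (l : List ℕ) (q : ℕ) [NeZero q] (h : ZMod q) :
    chi (dz (n :: l)) q h = (chi (dz l) q h + chi (dz l) q (n * h)) / 2 := by
  unfold chi
  refine (cavg_bool (β := Om l) _).trans ?_
  congr 2
  · congr 1; funext ω; simp [dz, dd]
  · congr 1; funext ω; simp only [dz, dd]; congr 1; simp; ring

noncomputable def AA (l : List ℕ) (q : ℕ) [NeZero q] (h : ZMod q) : ℝ := ‖chi (dz l) q h‖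

lemma AA_nonneg (l : List ℕ) (q : ℕ) [NeZero q] (h : ZMod q) : 0 ≤ AA l q h := norm_nonneg _
lemma AA_le_one (l : List ℕ) (q : ℕ) [NeZero q] (h : ZMod q) : AA l q h ≤ 1 := norm_chi_le q _ h

lemma AA_cons (n : ℕ) (l : List ℕ) (q : ℕ) [NeZero q] (h : ZMod q) :
    AA (n :: l) q h ≤ (AA l q h + AA l q (n * h)) / 2 := by
  unfold AA
  rw [chi_cons, norm_div]
  have := norm_add_le (chi (dz l) q h) (chi (dz l) q (n * h))
  simp only [Complex.norm_ofNat]
  linarith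

lemma pt_mono {α β : ℝ} (hα : 0 ≤ α) (hβ : 0 ≤ β) (a : ℕ) :
    ((α + β) / 2) ^ a ≤ (α ^ a + β ^ a) / 2 := by
  have := add_pow_le hα hβ a
  rcases a with _ | a
  · simp
  · rw [div_pow, div_le_iff₀ (by positivity)]
    simp only [Nat.add_sub_cancel] at this
    calc _ ≤ _ := this
      _ = _ := by ring

lemma pt_contr_aux {α β : ℝ} (hβ : 0 ≤ β) (h : β ≤ α) (a : ℕ) :
    ((α + β) / 2) ^ (2 * a) ≤ (4 / 9) ^ a * (α ^ (2 * a) + β ^ (2 * a)) + 3 ^ a * (α ^ a * β ^ a) := by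
  have hα : 0 ≤ α := hβ.trans h
  rw [pow_mul]
  by_cases h3 : β ≤ α / 3
  · have : ((α + β) / 2) ^ 2 ≤ 4 / 9 * α ^ 2 := by nlinarith
    calc _ ≤ (4 / 9 * α ^ 2) ^ a := pow_le_pow_left₀ (by positivity) this a
      _ = (4 / 9) ^ a * α ^ (2 * a) := by rw [mul_pow, pow_mul]
      _ ≤ _ := by
        have : 0 ≤ (4 / 9 : ℝ) ^ a * β ^ (2 * a) := by positivity
        have : 0 ≤ (3 : ℝ) ^ a * (α ^ a * β ^ a) := by positivity
        nlinarith
  · have : ((α + β) / 2) ^ 2 ≤ 3 * (α * β) := by nlinarith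
    calc _ ≤ (3 * (α * β)) ^ a := pow_le_pow_left₀ (by positivity) this a
      _ = 3 ^ a * (α ^ a * β ^ a) := by rw [mul_pow, mul_pow]
      _ ≤ _ := le_add_of_nonneg_left (by positivity)

lemma pt_contr {α β : ℝ} (hα : 0 ≤ α) (hβ : 0 ≤ β) (a : ℕ) :
    ((α + β) / 2) ^ (2 * a) ≤ (4 / 9) ^ a * (α ^ (2 * a) + β ^ (2 * a)) + 3 ^ a * (α ^ a * β ^ a) := by
  rcases le_total β α with h | h
  · exact pt_contr_aux hβ h a
  · have := pt_contr_aux hα h a
    rwa [add_comm β α, add_comm (β ^ (2 * a)), mul_comm (β ^ a)] at this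

section
variable {q : ℕ} [NeZero q] {n : ℕ}

lemma perm_univ (hn : n.Coprime q) (f : ZMod q → ℝ) : ∑ h, f (n * h) = ∑ h, f h := by
  have := Equiv.sum_comp (Units.mulLeft (ZMod.unitOfCoprime n hn)) f
  simpa using this

lemma perm_erase (hn : n.Coprime q) (f : ZMod q → ℝ) :
    ∑ h ∈ Finset.univ.erase 0, f (n * h) = ∑ h ∈ Finset.univ.erase 0, f h := by
  have h1 := Finset.add_sum_erase Finset.univ (fun h => f (n * h)) (Finset.mem_univ 0)
  have h2 := Finset.add_sum_erase Finset.univ f (Finset.mem_univ 0)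
  have h3 := perm_univ hn f
  simp only [mul_zero] at h1
  linarith

lemma step_mono (l : List ℕ) (S : Finset (ZMod q))
    (hS : ∀ f : ZMod q → ℝ, ∑ h ∈ S, f (n * h) = ∑ h ∈ S, f h) (a : ℕ) :
    ∑ h ∈ S, AA (n :: l) q h ^ a ≤ ∑ h ∈ S, AA l q h ^ a := by
  calc _ ≤ ∑ h ∈ S, (AA l q h ^ a + AA l q (n * h) ^ a) / 2 :=
        Finset.sum_le_sum fun h _ => le_trans (pow_le_pow_left₀ (AA_nonneg _ _ _) (AA_cons _ _ _ _) _)
          (pt_mono (AA_nonneg _ _ _) (AA_nonneg _ _ _) a)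
    _ = _ := by
        rw [← Finset.sum_div, Finset.sum_add_distrib, hS (fun h => AA l q h ^ a)]; ring

lemma step_contr (l : List ℕ) (S : Finset (ZMod q))
    (hS : ∀ f : ZMod q → ℝ, ∑ h ∈ S, f (n * h) = ∑ h ∈ S, f h) (a : ℕ) :
    ∑ h ∈ S, AA (n :: l) q h ^ (2 * a) ≤ 2 * (4 / 9) ^ a * ∑ h ∈ S, AA l q h ^ (2 * a)
      + 3 ^ a * ∑ h ∈ S, AA l q h ^ a * AA l q (n * h) ^ a := by
  calc _ ≤ ∑ h ∈ S, ((4 / 9) ^ a * (AA l q h ^ (2 * a) + AA l q (n * h) ^ (2 * a))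
          + 3 ^ a * (AA l q h ^ a * AA l q (n * h) ^ a)) :=
        Finset.sum_le_sum fun h _ => le_trans (pow_le_pow_left₀ (AA_nonneg _ _ _) (AA_cons _ _ _ _) _)
          (pt_contr (AA_nonneg _ _ _) (AA_nonneg _ _ _) a)
    _ = _ := by
        rw [Finset.sum_add_distrib, ← Finset.mul_sum, ← Finset.mul_sum, Finset.sum_add_distrib,
          hS (fun h => AA l q h ^ (2 * a))]; ring

end

noncomputable def ee (l : List ℕ) (i q : ℕ) : ℝ := dv (Sm (Dif (dz l)) (2 ^ i)) q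

lemma ee_nonneg (l : List ℕ) (i q : ℕ) : 0 ≤ ee l i q := dv_nonneg _ _
lemma ee_le_one (l : List ℕ) (i q : ℕ) : ee l i q ≤ 1 := dv_le_one _ _

lemma ee_eq (l : List ℕ) (i q : ℕ) [NeZero q] : ∑ h, AA l q h ^ (2 * 2 ^ i) = q * ee l i q :=
  sum_norm_pow q _ _

lemma qpos (q : ℕ) [NeZero q] : (0 : ℝ) < q := by exact_mod_cast Nat.pos_of_ne_zero (NeZero.ne q)

lemma ee_anti (l : List ℕ) {i j : ℕ} (hij : i ≤ j) (q : ℕ) [NeZero q] : ee l j q ≤ ee l i q := by
  refine le_of_mul_le_mul_left ?_ (qpos q)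
  rw [← ee_eq, ← ee_eq]
  refine Finset.sum_le_sum fun h _ => pow_le_pow_of_le_one (AA_nonneg _ _ _) (AA_le_one _ _ _) ?_
  have := Nat.pow_le_pow_right (by norm_num : 0 < 2) hij
  omega

lemma ee_mono {q n : ℕ} [NeZero q] (hn : n.Coprime q) (l : List ℕ) (i : ℕ) :
    ee (n :: l) i q ≤ ee l i q := by
  refine le_of_mul_le_mul_left ?_ (qpos q)
  rw [← ee_eq, ← ee_eq]
  exact step_mono l _ (perm_univ hn) _

noncomputable def ph (l : List ℕ) (q : ℕ) : ℕ → ZMod q → ℝ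
  | 0 => pr (dz l) q
  | i + 1 => pr (Sm (Dif (dz l)) (2 ^ i)) q

lemma ph_nonneg (l : List ℕ) (q i : ℕ) (B : ZMod q) : 0 ≤ ph l q i B := by
  cases i <;> exact pr_nonneg _ _ _

lemma split_zero {q : ℕ} [NeZero q] (φ : ZMod q → ℝ) (n : ℕ) :
    ∑ B, φ B * φ (n * B) = φ 0 ^ 2 + NN φ n := by
  unfold NN
  rw [← Finset.add_sum_erase Finset.univ _ (Finset.mem_univ 0), mul_zero, sq]

lemma sq_erase_le {q : ℕ} [NeZero q] (φ : ZMod q → ℝ) :
    ∑ B ∈ Finset.univ.erase 0, φ B ^ 2 ≤ ∑ B, φ B * φ (1 * B) := by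
  simp only [one_mul, ← sq]
  exact Finset.sum_le_sum_of_subset_of_nonneg (Finset.subset_univ _) fun _ _ _ => sq_nonneg _

lemma step_succ {q n : ℕ} [NeZero q] (hn : n.Coprime q) (l : List ℕ) (i : ℕ) (θ : ℝ)
    (hθ0 : 0 ≤ θ) (hθ1 : θ ≤ 1) (hg : NN (ph l q (i + 1)) n ≤ θ * Vol (ph l q (i + 1))) :
    ee (n :: l) (i + 1) q ≤ (2 * (4 / 9) ^ (2 ^ (i + 1)) + 3 ^ (2 ^ (i + 1)) * θ) * ee l (i + 1) q
      + 3 ^ (2 ^ (i + 1)) * ∑ r ∈ q.divisors, ww r * ee l i (q / r) ^ 2 := by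
  have hq := qpos q
  have h1 := step_contr l Finset.univ (perm_univ hn) (2 ^ (i + 1))
  rw [ee_eq, ee_eq] at h1
  have e2 : 2 ^ (i + 1) = 2 * 2 ^ i := by ring
  have h2 := parseval_Del q (dz l) (2 ^ i) n
  have h3 := parseval_Del q (dz l) (2 ^ i) 1
  rw [← e2] at h2 h3
  have h4 : ∑ B, ph l q (i + 1) B * ph l q (i + 1) (1 * B) = ee l (i + 1) q := by
    refine mul_left_cancel₀ hq.ne' ?_
    rw [← ee_eq]
    refine h3.symm.trans (Finset.sum_congr rfl fun h _ => ?_)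
    rw [one_mul, ← pow_add, two_mul]; rfl
  have h5 : Vol (ph l q (i + 1)) ≤ ee l (i + 1) q
      + ∑ r ∈ q.divisors.erase 1, ww r * ee l i (q / r) ^ 2 := by
    unfold Vol
    refine add_le_add (h4 ▸ sq_erase_le _) (Finset.sum_le_sum fun r hr => ?_)
    refine mul_le_mul_of_nonneg_left (pow_le_pow_left₀
      (Finset.sum_nonneg fun _ _ => ph_nonneg _ _ _ _) ?_ _) (ww_nonneg r)
    exact class_pr q _ r (Nat.dvd_of_mem_divisors (Finset.mem_erase.mp hr).2)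
  have h6 : ∑ r ∈ q.divisors, ww r * ee l i (q / r) ^ 2
      = ee l i q ^ 2 + ∑ r ∈ q.divisors.erase 1, ww r * ee l i (q / r) ^ 2 := by
    rw [← Finset.add_sum_erase _ _ (Nat.one_mem_divisors.mpr (NeZero.ne q)), ww_one]; simp
  have h7 : ∑ B, ph l q (i + 1) B * ph l q (i + 1) (n * B)
      ≤ θ * ee l (i + 1) q + ∑ r ∈ q.divisors, ww r * ee l i (q / r) ^ 2 := by
    rw [split_zero, h6]
    have a1 : ph l q (i + 1) 0 = ee l i q := pr_zero _ _
    have a2 : 0 ≤ ∑ r ∈ q.divisors.erase 1, ww r * ee l i (q / r) ^ 2 :=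
      Finset.sum_nonneg fun r _ => mul_nonneg (ww_nonneg r) (sq_nonneg _)
    have a3 := mul_le_mul_of_nonneg_left h5 hθ0
    rw [a1]
    nlinarith
  refine le_of_mul_le_mul_left (le_trans h1 ?_) hq
  have h8 : ∑ h, AA l q h ^ 2 ^ (i + 1) * AA l q (n * h) ^ 2 ^ (i + 1)
      = q * ∑ B, ph l q (i + 1) B * ph l q (i + 1) (n * B) := h2
  rw [h8]
  have := mul_le_mul_of_nonneg_left h7 (show (0 : ℝ) ≤ 3 ^ (2 ^ (i + 1)) * q by positivity)
  nlinarith

lemma step_zero {q n : ℕ} [NeZero q] (hq1 : q ≠ 1) (hn : n.Coprime q) (l : List ℕ)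
    (hl : l.prod.Coprime q) (θ : ℝ)
    (hθ0 : 0 ≤ θ) (hg : NN (ph l q 0) n ≤ θ * Vol (ph l q 0)) :
    ee (n :: l) 0 q ≤ (1 / 2 + θ / 2) * ee l 0 q + θ / 2 * ww q := by
  have hq := qpos q
  have hdv : ∀ g, g ∣ q → g ≠ 1 → dv (dz l) g = 0 := by
    intro g hg hg1
    have : ∀ ω, ind ((g : ℤ) ∣ dz l ω) = 0 := by
      intro ω
      refine ind_neg fun h => hg1 ?_
      have h1 : g ∣ dd l ω := Int.natCast_dvd_natCast.mp h
      exact Nat.eq_one_of_dvd_coprimes hl (h1.trans (dd_dvd l ω)) hg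
    unfold dv; rw [avg_congr this, avg_const]
  have hre : ∀ m : ZMod q, ∑ h, (chi (dz l) q h * conj (chi (dz l) q (m * h))).re
      = q * ∑ B, ph l q 0 B * ph l q 0 (m * B) := by
    intro m
    rw [← Complex.re_sum, parseval, Complex.ofReal_re]; rfl
  have h0 : ∀ l, ∑ h, AA l q h ^ 2 = q * ee l 0 q := fun l => by simpa using ee_eq l 0 q
  have h4 : ∑ B, ph l q 0 B * ph l q 0 (1 * B) = ee l 0 q := by
    refine mul_left_cancel₀ hq.ne' ?_
    rw [← h0, ← hre]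
    refine Finset.sum_congr rfl fun h _ => ?_
    rw [one_mul, Complex.mul_conj, Complex.ofReal_re, Complex.normSq_eq_norm_sq]; rfl
  have h1 : ∀ h, AA (n :: l) q h ^ 2 = (AA l q h ^ 2 + AA l q (n * h) ^ 2) / 4
      + (chi (dz l) q h * conj (chi (dz l) q (n * h))).re / 2 := by
    intro h
    unfold AA
    rw [chi_cons, norm_div, div_pow, ← Complex.normSq_eq_norm_sq, Complex.normSq_add,
      Complex.normSq_eq_norm_sq, Complex.normSq_eq_norm_sq]
    simp only [Complex.norm_ofNat]; ring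
  have h2 : q * ee (n :: l) 0 q = q * ee l 0 q / 2
      + q * (∑ B, ph l q 0 B * ph l q 0 (n * B)) / 2 := by
    rw [← h0, Finset.sum_congr rfl fun h _ => h1 h, Finset.sum_add_distrib, ← Finset.sum_div,
      ← Finset.sum_div, Finset.sum_add_distrib, perm_univ hn (fun h => AA l q h ^ 2), hre, h0]
    ring
  have h5 : Vol (ph l q 0) ≤ ee l 0 q + ww q := by
    unfold Vol
    refine add_le_add (h4 ▸ sq_erase_le _) ?_
    have hm : ∀ r ∈ q.divisors.erase 1,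
        ww r * (∑ B ∈ Finset.univ.filter (fun B : ZMod q => addOrderOf B = r), ph l q 0 B) ^ 2
        ≤ ww r * dv (dz l) (q / r) ^ 2 := fun r hr =>
      mul_le_mul_of_nonneg_left (pow_le_pow_left₀
        (Finset.sum_nonneg fun _ _ => ph_nonneg _ _ _ _)
        (class_pr q _ r (Nat.dvd_of_mem_divisors (Finset.mem_erase.mp hr).2)) _) (ww_nonneg r)
    refine le_trans (Finset.sum_le_sum hm) ?_
    rw [Finset.sum_eq_single q]
    · have a := dv_le_one (dz l) (q / q)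
      have b := dv_nonneg (dz l) (q / q)
      have c := ww_nonneg q
      have : dv (dz l) (q / q) ^ 2 ≤ 1 := pow_le_one₀ b a
      nlinarith
    · intro r hr hrq
      have hd := Nat.dvd_of_mem_divisors (Finset.mem_erase.mp hr).2
      rw [hdv (q / r) (Nat.div_dvd_of_dvd hd)]
      · simp
      · intro h1
        have := Nat.mul_div_cancel' hd
        rw [h1, mul_one] at this; exact hrq this
    · intro h
      exact absurd (Finset.mem_erase.mpr ⟨hq1, Nat.mem_divisors_self q (NeZero.ne q)⟩) h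
  have h7 : ∑ B, ph l q 0 B * ph l q 0 (n * B) ≤ θ * (ee l 0 q + ww q) := by
    rw [split_zero]
    have a1 : ph l q 0 0 = 0 := (pr_zero _ _).trans (hdv q dvd_rfl hq1)
    rw [a1]
    have a3 := mul_le_mul_of_nonneg_left h5 hθ0
    nlinarith
  refine le_of_mul_le_mul_left ?_ hq
  rw [h2]
  nlinarith [mul_le_mul_of_nonneg_left h7 hq.le]

noncomputable def Ph (l : List ℕ) (I q : ℕ) [NeZero q] : ℝ :=
  ∑ h ∈ Finset.univ.erase 0, AA l q h ^ (2 * 2 ^ (I + 1))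

lemma Ph_mono {q n : ℕ} [NeZero q] (hn : n.Coprime q) (l : List ℕ) (I : ℕ) :
    Ph (n :: l) I q ≤ Ph l I q := step_mono l _ (perm_erase hn) _

lemma step_Ph {q n : ℕ} [NeZero q] (hn : n.Coprime q) (l : List ℕ) (I : ℕ) (θ : ℝ)
    (hθ0 : 0 ≤ θ)
    (hg : NN (fun h => AA l q h ^ 2 ^ (I + 1)) n ≤ θ * Vol (fun h => AA l q h ^ 2 ^ (I + 1))) :
    Ph (n :: l) I q ≤ (2 * (4 / 9) ^ (2 ^ (I + 1)) + 3 ^ (2 ^ (I + 1)) * θ) * Ph l I q
      + 3 ^ (2 ^ (I + 1)) * θ * ∑ r ∈ q.divisors.erase 1, ww r * (r * ee l I r) ^ 2 := by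
  have h1 := step_contr l (Finset.univ.erase 0) (perm_erase hn) (2 ^ (I + 1))
  have h5 : Vol (fun h => AA l q h ^ 2 ^ (I + 1)) ≤ Ph l I q
      + ∑ r ∈ q.divisors.erase 1, ww r * (r * ee l I r) ^ 2 := by
    unfold Vol
    refine add_le_add (le_of_eq ?_) (Finset.sum_le_sum fun r hr => ?_)
    · refine Finset.sum_congr rfl fun h _ => ?_
      rw [← pow_mul, mul_comm]
    · refine mul_le_mul_of_nonneg_left (pow_le_pow_left₀
        (Finset.sum_nonneg fun _ _ => pow_nonneg (AA_nonneg _ _ _) _) ?_ _) (ww_nonneg r)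
      have := class_norm_pow q (dz l) (2 ^ I) r (Nat.dvd_of_mem_divisors (Finset.mem_erase.mp hr).2)
      rw [show 2 * 2 ^ I = 2 ^ (I + 1) by ring] at this
      exact this
  have h6 := le_trans hg (mul_le_mul_of_nonneg_left h5 hθ0)
  have h7 := mul_le_mul_of_nonneg_left h6 (show (0 : ℝ) ≤ 3 ^ (2 ^ (I + 1)) by positivity)
  unfold NN at h7
  unfold Ph at *
  nlinarith

lemma cover_of_Ph (l : List ℕ) (I q : ℕ) [NeZero q] (h : Ph l I q < 1) (c : ZMod q) :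
    ∃ t : Fin (2 * 2 ^ (I + 1)) → Om l, ((∑ i, dd l (t i) : ℕ) : ZMod q) = c := by
  by_contra hne
  have h0 : pr (Sm (dz l) (2 * 2 ^ (I + 1))) q c = 0 := by
    have : ∀ t, ind (((Sm (dz l) (2 * 2 ^ (I + 1)) t : ℤ) : ZMod q) = c) = 0 := by
      intro t
      refine ind_neg fun e => hne ⟨t, ?_⟩
      rw [← e]; simp [Sm, dz]
    unfold pr; rw [avg_congr this, avg_const]
  have h1 := inversion q (Sm (dz l) (2 * 2 ^ (I + 1))) c
  rw [h0, mul_zero, ← Finset.add_sum_erase Finset.univ _ (Finset.mem_univ 0), chi_zero] at h1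
  simp only [zero_mul, AddChar.map_zero_eq_one, mul_one, Complex.ofReal_zero] at h1
  have h2 := congrArg norm (eq_neg_of_add_eq_zero_left h1)
  rw [norm_one, norm_neg] at h2
  have h3 := norm_sum_le (Finset.univ.erase (0 : ZMod q))
    (fun h => chi (Sm (dz l) (2 * 2 ^ (I + 1))) q h * ZMod.stdAddChar (h * -c))
  simp only [norm_mul, norm_char, mul_one, chi_Sm, norm_pow] at h3
  simp only [chi_Sm] at h2
  unfold Ph AA at h
  linarith

end Vale.Agent.P012
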